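import Vale.Agent.P213.Cells.Key

/-!
# P213: attaching a cell, abstract form

`P` is a finite poset, `A` a lower set, `M` an upper set containing it such that every element of
`M` outside `A` has a greatest element of `A` below it. Pushing out along the free map of `A` in
`P` gives a homotopy pushout of nerves; if moreover the part in `M` outside `A` includes by a weak
equivalence into the part outside `A`, it gives a weak equivalence.
-/

namespace Vale.Agent.P213.Cells

open CategoryTheory CategoryTheory.Limits Opposite Simplicial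

universe u

noncomputable section

/-- The cospan of labels: inside `M`, outside `A`, or both. -/
abbrev Cospan : Type u :=
  {l : ULift.{u} (Bool × Bool) // l.down.1 = true ∨ l.down.2 = true}

/-- The labels inside `M`. -/
def spanL : Set Cospan.{u} := {l | l.1.down.1 = true}

/-- The labels outside `A`. -/
def spanR : Set Cospan.{u} := {l | l.1.down.2 = true}

theorem ordConnected_spanL : spanL.{u}.OrdConnected :=
  IsUpperSet.ordConnected fun _ _ h ha => top_le_iff.1 ((le_of_eq ha.symm).trans h.1)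

theorem ordConnected_spanR : spanR.{u}.OrdConnected :=
  IsUpperSet.ordConnected fun _ _ h ha => top_le_iff.1 ((le_of_eq ha.symm).trans h.2)

theorem cospan_cover (a : ℕ) (l : Fin (a + 1) →o Cospan.{u}) :
    (∀ i, l i ∈ spanL) ∨ ∀ i, l i ∈ spanR := by
  by_contra h
  push Not at h
  obtain ⟨⟨i, hi⟩, k, hk⟩ := h
  rcases le_total i k with h' | h'
  · exact hk (top_le_iff.1 ((le_of_eq ((l i).2.resolve_left hi).symm).trans (l.mono h').2))
  · exact hi (top_le_iff.1 ((le_of_eq ((l k).2.resolve_right hk).symm).trans (l.mono h').1))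

variable {n : ℕ∞}

theorem isIso_of_isEmpty {X Y : NCat.{u} n} (f : X ⟶ Y) (hX : IsEmpty X.obj.carrier)
    (hY : IsEmpty Y.obj.carrier) : IsIso f :=
  ⟨ObjectProperty.homMk ⟨fun y => (hY.false y).elim, fun _ y => (hY.false y).elim,
      fun _ y => (hY.false y).elim, fun _ y => (hY.false y).elim⟩,
    ObjectProperty.hom_ext _ (Fun.ext fun x => (hX.false x).elim),
    ObjectProperty.hom_ext _ (Fun.ext fun y => (hY.false y).elim)⟩

/-- The data of one attachment. -/
structure Attach (P : Type u) [PartialOrder P] where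
  A : P → Prop
  M : P → Prop
  lower : ∀ a b, a ≤ b → A b → A a
  upper : Monotone M
  le : ∀ a, A a → M a
  retr : ∀ v, M v → ¬A v → ∃ a, A a ∧ a ≤ v ∧ ∀ p, A p → p ≤ v → p ≤ a

namespace Attach

variable {P : Type u} [PartialOrder P] (T : Attach P)

/-- The inclusion of `A`. -/
abbrev incl : {p // T.A p} →o P := ⟨fun p => p.1, fun _ _ h => h⟩

open Classical in
/-- The labelling of `P`. -/
def lab : P →o Cospan.{u} where
  toFun p := ⟨⟨(decide (T.M p), decide (¬T.A p))⟩, by
    by_cases h : T.A p
    · exact .inl (decide_eq_true (T.le p h))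
    · exact .inr (decide_eq_true h)⟩
  monotone' a b h := by
    refine ⟨?_, ?_⟩ <;> intro e <;> refine decide_eq_true ?_
    · exact T.upper h (of_decide_eq_true e)
    · exact fun hb => of_decide_eq_true e (T.lower a b h hb)

theorem mem_spanL (p : P) : T.lab p ∈ spanL ↔ T.M p := by
  classical
  exact decide_eq_true_iff

theorem mem_spanR (p : P) : T.lab p ∈ spanR ↔ ¬T.A p := by
  classical
  exact decide_eq_true_iff

/-- The label of the old part. -/
def oldLab : Cospan.{u} := ⟨⟨(true, false)⟩, .inl rfl⟩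

theorem lab_incl (p : {p // T.A p}) : T.lab p.1 = oldLab := by
  classical
  refine Subtype.ext (ULift.ext _ _ (Prod.ext ?_ ?_))
  · exact decide_eq_true (T.le _ p.2)
  · exact decide_eq_false fun h => h p.2

variable (H : Inputs.{u} n) {c : SSet.{u} ⥤ NCat.{u} n} (adj : c ⊣ nerveN n)
  {X Y : NCat.{u} n} {g : free c {p // T.A p} ⟶ X} {j : free c P ⟶ Y} {i : X ⟶ Y}
  (sq : IsPushout (freeMap c T.incl) g j i)

/-- The labels of the free category. -/
abbrev lP : free c P ⟶ thin H.hn Cospan.{u} := labFun H.hn adj H.hI T.lab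

/-- The constant label of the target. -/
abbrev lX (X : NCat.{u} n) : X ⟶ thin H.hn Cospan.{u} :=
  ObjectProperty.homMk (toThin (fun _ => oldLab) fun _ => le_rfl)

theorem compat {X : NCat.{u} n} (g : free c {p // T.A p} ⟶ X) :
    freeMap c T.incl ≫ T.lP H adj = g ≫ lX H X := by
  rw [labFun_natural]
  refine free_hom_ext adj fun a w => thin_hom_ext _ _ fun o ho => ?_
  refine (labelOf_sig H.hn adj H.hI _ w o ho).trans ((T.lab_incl (w _)).trans ?_)
  exact (labelOf_toThin (fun _ => oldLab) (fun _ => le_rfl) (((sig adj w).comp g.hom).toFun o)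
    ((((sig adj w).comp g.hom).map_s 0 o).symm.trans (congrArg _ ho))).symm

/-- The labels of the pushout. -/
abbrev lY : Y ⟶ thin H.hn Cospan.{u} := sq.desc (T.lP H adj) (lX H X) (T.compat H adj g)

theorem inl_lY : j ≫ T.lY H adj sq = T.lP H adj := sq.inl_desc _ _ _

theorem inr_lY : i ≫ T.lY H adj sq = lX H X := sq.inr_desc _ _ _

/-- The comparison on parts. -/
abbrev phi (D : Set Cospan.{u}) : partOf (T.lP H adj) D ⟶ partOf (T.lY H adj sq) D :=
  partHom j (T.lP H adj) (T.lY H adj sq) (T.inl_lY H adj sq) D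

theorem phi_le {D D' : Set Cospan.{u}} (h : D ⊆ D') :
    partLe (T.lP H adj) h ≫ T.phi H adj sq D' = T.phi H adj sq D ≫ partLe (T.lY H adj sq) h := rfl

theorem phi_ι (D : Set Cospan.{u}) :
    T.phi H adj sq D ≫ partOfι (T.lY H adj sq) D = partOfι (T.lP H adj) D ≫ j := rfl

theorem isIso_phi (D : Set Cospan.{u}) (hD : D.OrdConnected) (h : oldLab ∉ D) :
    IsIso (T.phi H adj sq D) := by
  have hX : IsEmpty (partOf (lX H X) D).obj.carrier := ⟨fun x => h x.2.1⟩
  have hZ : IsEmpty (partOf (g ≫ lX H X) D).obj.carrier := ⟨fun x => h x.2.1⟩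
  have := isIso_of_isEmpty (partHom g (g ≫ lX H X) (lX H X) rfl D) hZ hX
  exact IsPushout.isIso_inl_of_isIso (isPushout_part H.hR sq (T.lY H adj sq) (g ≫ lX H X)
    (T.lP H adj) (lX H X) (T.inl_lY H adj sq) (T.inr_lY H adj sq) (T.compat H adj g) rfl D hD)

/-- The old part in the part with labels in `M`. -/
def oldIn {X' Y' : NCat.{u} n} (f : X' ⟶ Y') (l : Y' ⟶ thin H.hn Cospan.{u})
    (h : ∀ x, labelOf l.hom (f.hom.toFun x) ∈ spanL) : X' ⟶ partOf l spanL :=
  ObjectProperty.homMk (Y'.obj.toSub f.hom _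
    (Y'.obj.full_closed fun o => labelOf l.hom o ∈ spanL) fun x => by
      rw [← f.hom.map_s, ← f.hom.map_t]
      exact ⟨h _, h _⟩)

theorem oldIn_ι {X' Y' : NCat.{u} n} (f : X' ⟶ Y') (l : Y' ⟶ thin H.hn Cospan.{u}) (h) :
    oldIn H f l h ≫ partOfι l spanL = f := rfl

theorem i_mem (x : X.obj.carrier) : labelOf (T.lY H adj sq).hom (i.hom.toFun x) ∈ spanL := by
  have h : labelOf (T.lY H adj sq).hom (i.hom.toFun x) = labelOf (lX H X).hom x :=
    congrArg (fun F : X ⟶ thin H.hn Cospan.{u} => labelOf F.hom x) (T.inr_lY H adj sq)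
  rw [h]
  rfl

/-- The old part of the target. -/
abbrev i₁ : X ⟶ partOf (T.lY H adj sq) spanL := oldIn H i (T.lY H adj sq) (T.i_mem H adj sq)

theorem incl_mem (x : (free c {p // T.A p}).obj.carrier) :
    labelOf (T.lP H adj).hom ((freeMap c T.incl).hom.toFun x) ∈ spanL := by
  have h : labelOf (T.lP H adj).hom ((freeMap c T.incl).hom.toFun x) =
      labelOf (lX H (free c {p // T.A p})).hom x :=
    congrArg (fun F : free c {p // T.A p} ⟶ thin H.hn Cospan.{u} => labelOf F.hom x)
      ((T.compat H adj (𝟙 _)).trans (Category.id_comp _))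
  rw [h]
  rfl

/-- `A` inside the part with labels in `M`. -/
abbrev f₁ : free c {p // T.A p} ⟶ partOf (T.lP H adj) spanL :=
  oldIn H (freeMap c T.incl) (T.lP H adj) (T.incl_mem H adj)

include H adj sq in
theorem key_part [Finite P] :
    IsPushout (T.f₁ H adj) g (T.phi H adj sq spanL) (T.i₁ H adj sq) ∧
    Mono ((nerveN n).map (T.i₁ H adj sq)) ∧ Spec.weq ((nerveN n).map (T.i₁ H adj sq)) := by
  have hZ : IsIso (partOfι (g ≫ lX H X) spanL) := isIso_partOfι _ _ fun _ _ => rfl
  have hX : IsIso (partOfι (lX H X) spanL) := isIso_partOfι _ _ fun _ _ => rfl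
  have s1 : IsPushout (T.f₁ H adj) g (T.phi H adj sq spanL) (T.i₁ H adj sq) :=
    IsPushout.of_iso (isPushout_part H.hR sq (T.lY H adj sq) (g ≫ lX H X) (T.lP H adj) (lX H X)
        (T.inl_lY H adj sq) (T.inr_lY H adj sq) (T.compat H adj g) rfl spanL ordConnected_spanL)
      (asIso (partOfι (g ≫ lX H X) spanL)) (Iso.refl _) (asIso (partOfι (lX H X) spanL))
      (Iso.refl _) rfl rfl rfl rfl
  have hpm := isIso_partMap H.hn adj H.hI H.hR T.lab spanL ordConnected_spanL
  let V : Part T.lab spanL → Prop := fun w => ¬T.A w.1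
  let e : {w : Part T.lab spanL // ¬V w} →o {p // T.A p} :=
    ⟨fun w => ⟨w.1.1, not_not.1 w.2⟩, fun _ _ h => h⟩
  let e' : {p // T.A p} →o {w : Part T.lab spanL // ¬V w} :=
    ⟨fun p => ⟨⟨p.1, (T.mem_spanL _).2 (T.le _ p.2)⟩, not_not_intro p.2⟩, fun _ _ h => h⟩
  have he := isIso_freeMap (c := c) e e' (fun _ => rfl) (fun _ => rfl)
  have s2 : IsPushout (freeMap c (⟨fun w : {w : Part T.lab spanL // ¬V w} => w.1, fun _ _ h => h⟩ :
      _ →o Part T.lab spanL)) (freeMap c e ≫ g)
      (partMap H.hn adj H.hI T.lab spanL ≫ T.phi H adj sq spanL) (T.i₁ H adj sq) := by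
    refine IsPushout.of_iso s1 (asIso (freeMap c e)).symm
      (asIso (partMap H.hn adj H.hI T.lab spanL)).symm (Iso.refl _) (Iso.refl _) ?_ ?_ ?_ ?_
    · rw [Iso.symm_hom, Iso.symm_hom, asIso_inv, asIso_inv, IsIso.comp_inv_eq, Category.assoc,
        IsIso.eq_inv_comp]
      refine ObjectProperty.hom_ext _ (Fun.ext fun x => Subtype.ext ?_)
      refine Eq.trans ?_ (partMap_toFun H.hn adj H.hI T.lab spanL _).symm
      have h := congrArg (fun F : free c {w : Part T.lab spanL // ¬V w} ⟶ free c P =>
        F.hom.toFun x) ((freeMap_comp (c := c) e T.incl).symm.trans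
          (freeMap_comp (c := c) (⟨fun w : {w : Part T.lab spanL // ¬V w} => w.1,
            fun _ _ h => h⟩ : _ →o Part T.lab spanL) (partIncl T.lab spanL)))
      exact h
    · simp
    · simp
    · simp
  refine ⟨s1, key H adj V (fun a b h ha hb => ha (T.lower _ _ h hb)) (fun v hv => ?_) s2⟩
  obtain ⟨a, ha, hle, hmax⟩ := T.retr v.1 ((T.mem_spanL _).1 v.2) hv
  exact ⟨⟨a, (T.mem_spanL _).2 (T.le a ha)⟩, not_not_intro ha, hle,
    fun p hp h => hmax p.1 (not_not.1 hp) h⟩

include H adj sq in
theorem mono_map_inr [Finite P] : Mono ((nerveN n).map i) := by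
  have := (T.key_part H adj sq).2.1
  have := mono_map_partOfι (T.lY H adj sq) H.hI spanL
  rw [← oldIn_ι H i (T.lY H adj sq) (T.i_mem H adj sq), Functor.map_comp]
  infer_instance

include H adj in
theorem f₁_props [Finite P] :
    Mono ((nerveN n).map (T.f₁ H adj)) ∧ Spec.weq ((nerveN n).map (T.f₁ H adj)) := by
  have sq₀ : IsPushout (freeMap c T.incl) (𝟙 _) (𝟙 _) (freeMap c T.incl) := IsPushout.of_vert_isIso ⟨by simp⟩
  obtain ⟨s, hm, hw⟩ := T.key_part H adj sq₀
  have hphi : IsIso (T.phi H adj sq₀ spanL) := IsPushout.isIso_inl_of_isIso s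
  have e : (nerveN n).map (T.f₁ H adj) ≫ (nerveN n).map (T.phi H adj sq₀ spanL) =
      (nerveN n).map (T.i₁ H adj sq₀) := by
    rw [← Functor.map_comp]
    exact congrArg _ (s.w.trans (Category.id_comp _))
  refine ⟨mono_of_mono_fac e, ?_⟩
  exact H.weq_right (H.weq_iso _) (by rw [e]; exact hw)

include H adj sq in
/-- The nerve of the pushout is glued from the part in `M` and the free part. -/
theorem isPushout_nerve_phi :
    IsPushout ((nerveN n).map (T.phi H adj sq spanL))
      ((nerveN n).map (partOfι (T.lP H adj) spanL))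
      ((nerveN n).map (partOfι (T.lY H adj sq) spanL)) ((nerveN n).map j) := by
  have hno₂ : oldLab ∉ spanR.{u} := fun h => Bool.false_ne_true h
  have h₂ := T.isIso_phi H adj sq spanR ordConnected_spanR hno₂
  have h₀ := T.isIso_phi H adj sq (spanL ∩ spanR)
    (ordConnected_spanL.inter ordConnected_spanR) fun h => hno₂ h.2
  have glue : ∀ {Z : NCat.{u} n} (l : Z ⟶ thin H.hn Cospan.{u}),
      IsPushout ((nerveN n).map (partLe l (Set.inter_subset_left : spanL ∩ spanR ⊆ spanL.{u})))
        ((nerveN n).map (partLe l (Set.inter_subset_right : spanL ∩ spanR ⊆ spanR.{u})))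
        ((nerveN n).map (partOfι l spanL)) ((nerveN n).map (partOfι l spanR)) := by
    intro Z l
    have := isIso_map_partOfι l Set.univ fun _ _ => Set.mem_univ _
    exact IsPushout.of_iso (isPushout_nerve_part l H.hI Set.univ spanL spanR (Set.subset_univ _)
        (Set.subset_univ _) fun a s _ => cospan_cover a s)
      (Iso.refl _) (Iso.refl _) (Iso.refl _) (asIso ((nerveN n).map (partOfι l Set.univ)))
      (by simp) (by simp)
      (by rw [Iso.refl_hom, Category.id_comp, asIso_hom, ← Functor.map_comp, partLe_ι])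
      (by rw [Iso.refl_hom, Category.id_comp, asIso_hom, ← Functor.map_comp, partLe_ι])
  refine IsPushout.of_left (h₁₁ := (nerveN n).map (partLe (T.lP H adj)
    (Set.inter_subset_left : spanL ∩ spanR ⊆ spanL.{u}))) ?_
    (by rw [← Functor.map_comp, ← Functor.map_comp, phi_ι]) (glue (T.lP H adj))
  refine IsPushout.of_iso (glue (T.lY H adj sq))
    (asIso ((nerveN n).map (T.phi H adj sq (spanL ∩ spanR)))).symm (Iso.refl _)
    (asIso ((nerveN n).map (T.phi H adj sq spanR))).symm (Iso.refl _) ?_ ?_ ?_ ?_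
  · rw [Iso.symm_hom, asIso_inv, Iso.refl_hom, Category.comp_id, IsIso.eq_inv_comp,
      ← Functor.map_comp, ← Functor.map_comp, phi_le]
  · rw [Iso.symm_hom, asIso_inv, Iso.symm_hom, asIso_inv, IsIso.comp_inv_eq, Category.assoc,
      IsIso.eq_inv_comp, ← Functor.map_comp, ← Functor.map_comp, phi_le]
  · simp
  · rw [Iso.symm_hom, asIso_inv, Iso.refl_hom, Category.comp_id, IsIso.eq_inv_comp,
      ← Functor.map_comp, ← Functor.map_comp, phi_ι]

include H adj sq in
/-- The homotopy pushout. -/
theorem weq_comparison [Finite P] (Q : SSet.{u}) (l : (nerveN n).obj (free c P) ⟶ Q)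
    (r : (nerveN n).obj X ⟶ Q) (q : Q ⟶ (nerveN n).obj Y)
    (h : IsPushout ((nerveN n).map (freeMap c T.incl)) ((nerveN n).map g) l r)
    (hl : l ≫ q = (nerveN n).map j) (hr : r ≫ q = (nerveN n).map i) : Spec.weq q := by
  obtain ⟨s, -, hi⟩ := T.key_part H adj sq
  obtain ⟨hm, hf⟩ := T.f₁_props H adj
  let f := (nerveN n).map (T.f₁ H adj)
  have left := IsPushout.of_hasPushout ((nerveN n).map g) f
  let q₁ : pushout ((nerveN n).map g) f ⟶ (nerveN n).obj (partOf (T.lY H adj sq) spanL) :=
    left.desc ((nerveN n).map (T.i₁ H adj sq)) ((nerveN n).map (T.phi H adj sq spanL))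
      (by rw [← Functor.map_comp, ← Functor.map_comp]; exact congrArg _ s.w.symm)
  have hr₁ : Spec.weq (pushout.inl ((nerveN n).map g) f) := H.hP left.flip hm hf
  have hq₁ : Spec.weq q₁ := H.weq_left hr₁ (by rw [left.inl_desc]; exact hi)
  have hfac : f ≫ (nerveN n).map (partOfι (T.lP H adj) spanL) =
      (nerveN n).map (freeMap c T.incl) := by
    rw [← Functor.map_comp]
    rfl
  let k : pushout ((nerveN n).map g) f ⟶ Q :=
    left.desc r ((nerveN n).map (partOfι (T.lP H adj) spanL) ≫ l)
      (by rw [← Category.assoc f, hfac]; exact h.w.symm)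
  have right : IsPushout ((nerveN n).map (partOfι (T.lP H adj) spanL))
      (pushout.inr ((nerveN n).map g) f) l k :=
    IsPushout.of_left (h₁₁ := f) (by rw [hfac, left.inl_desc]; exact h)
      (left.inr_desc _ _ _).symm left.flip
  refine H.hG (𝟙 _) (𝟙 _) q₁ q right (T.isPushout_nerve_phi H adj sq).flip
    (mono_map_partOfι _ H.hI _) (mono_map_partOfι _ H.hI _) (by simp) ?_ ?_ ?_
    (H.weq_iso _) (H.weq_iso _) hq₁
  · rw [left.inr_desc, Category.id_comp]
  · rw [hl, Category.id_comp]
  · refine left.hom_ext ?_ ?_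
    · rw [left.inl_desc_assoc, left.inl_desc_assoc, hr, ← Functor.map_comp]
      rfl
    · rw [left.inr_desc_assoc, left.inr_desc_assoc, Category.assoc, hl, ← Functor.map_comp,
        ← Functor.map_comp, phi_ι]

include H adj sq in
/-- The case where the new parts include by a weak equivalence. -/
theorem weq_map_inr [Finite P] (hVU : Spec.weq (nerveMap (partInclLe T.lab
      (Set.inter_subset_right : spanL ∩ spanR ⊆ spanR.{u})).monotone.functor)) :
    Spec.weq ((nerveN n).map i) := by
  let lab' := T.lP H adj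
  have hw : ∀ D : Set Cospan.{u}, D.OrdConnected → Spec.weq (adj.unit.app (nerve (Part T.lab D)) ≫
      (nerveN n).map (partMap H.hn adj H.hI T.lab D)) := fun D hD =>
    weq_unit_part H adj T.lab hD (weq_unit_finite H adj _)
  have hcomm : nerveMap (partInclLe T.lab
        (Set.inter_subset_right : spanL ∩ spanR ⊆ spanR.{u})).monotone.functor ≫
      (adj.unit.app (nerve (Part T.lab spanR)) ≫
        (nerveN n).map (partMap H.hn adj H.hI T.lab spanR)) =
      (adj.unit.app (nerve (Part T.lab (spanL ∩ spanR))) ≫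
        (nerveN n).map (partMap H.hn adj H.hI T.lab (spanL ∩ spanR))) ≫
        (nerveN n).map (partLe lab' Set.inter_subset_right) := by
    rw [← Category.assoc, ← unit_freeMap, Category.assoc, Category.assoc, ← Functor.map_comp,
      ← Functor.map_comp, partMap_le H adj]
  have hle : Spec.weq ((nerveN n).map (partLe lab'
      (Set.inter_subset_right : spanL ∩ spanR ⊆ spanR.{u}))) :=
    H.weq_left (hw _ (ordConnected_spanL.inter ordConnected_spanR))
      (by rw [← hcomm]; exact H.weq_comp hVU (hw _ ordConnected_spanR))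
  have sqP : IsPushout ((nerveN n).map (partLe lab'
        (Set.inter_subset_left : spanL ∩ spanR ⊆ spanL.{u})))
      ((nerveN n).map (partLe lab' (Set.inter_subset_right : spanL ∩ spanR ⊆ spanR.{u})))
      ((nerveN n).map (partOfι lab' spanL)) ((nerveN n).map (partOfι lab' spanR)) := by
    have := isIso_map_partOfι lab' Set.univ fun _ _ => Set.mem_univ _
    exact IsPushout.of_iso (isPushout_nerve_part lab' H.hI Set.univ spanL spanR (Set.subset_univ _)
        (Set.subset_univ _) fun a s _ => cospan_cover a s)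
      (Iso.refl _) (Iso.refl _) (Iso.refl _) (asIso ((nerveN n).map (partOfι lab' Set.univ)))
      (by simp) (by simp)
      (by rw [Iso.refl_hom, Category.id_comp, asIso_hom, ← Functor.map_comp, partLe_ι])
      (by rw [Iso.refl_hom, Category.id_comp, asIso_hom, ← Functor.map_comp, partLe_ι])
  have hιP : Spec.weq ((nerveN n).map (partOfι lab' spanL)) :=
    H.hP sqP.flip (mono_map_partLe _ H.hI _) hle
  have hιY : Spec.weq ((nerveN n).map (partOfι (T.lY H adj sq) spanL)) :=
    H.hP (T.isPushout_nerve_phi H adj sq).flip (mono_map_partOfι _ H.hI _) hιP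
  obtain ⟨-, -, hi⟩ := T.key_part H adj sq
  have e : (nerveN n).map (T.i₁ H adj sq) ≫ (nerveN n).map (partOfι (T.lY H adj sq) spanL) =
      (nerveN n).map i := by
    rw [← Functor.map_comp, oldIn_ι]
  rw [← e]
  exact H.weq_comp hi hιY

end Attach

end

end Vale.Agent.P213.Cells
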