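import Vale.Agent.P213.Spec

/-!
# P213: simplices of nerves of posets, vertices, thin categories, labels
-/

namespace Vale.Agent.P213.Cells

open CategoryTheory Opposite Simplicial

universe u v w

noncomputable section

variable {a b c : ℕ}

/-! ### Vertices of orientals -/

theorem vert_x (i : Fin (a + 1)) (k : ℕ) (e : Bool) : (vert i).x k e =
    if k = 0 then Finsupp.single ⟨{i}, Finset.singleton_nonempty i⟩ 1 else 0 := rfl

theorem vert_injective : Function.Injective (vert : Fin (a + 1) → (simplexADC a).Cell) := by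
  intro i j h
  have h' := congrArg (fun p => p.x 0 false) h
  simp only [vert_x, if_true] at h'
  have := (Finsupp.single_left_injective one_ne_zero) h'
  exact Finset.singleton_injective (congrArg Subtype.val this)

theorem orientalMap_x (f : Fin (a + 1) →o Fin (b + 1)) (p : (simplexADC a).Cell) (k : ℕ) (e : Bool) :
    ((orientalMap f).toFun p).x k e = imageChain f (p.x k e) := rfl

theorem orientalMap_vert (f : Fin (a + 1) →o Fin (b + 1)) (i : Fin (a + 1)) :
    (orientalMap f).toFun (vert i) = vert (f i) := by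
  refine ADC.Cell.ext fun k e => ?_
  rw [orientalMap_x, vert_x, vert_x]
  by_cases hk : k = 0
  · rw [if_pos hk, if_pos hk, imageChain_single, one_smul, imageBasis, if_pos]
    · exact congrArg (Finsupp.single · 1) (Subtype.ext (Finset.image_singleton f i))
    · simp
  · rw [if_neg hk, if_neg hk, imageChain_zero]

theorem face_vert (e : Bool) (k : ℕ) (i : Fin (a + 1)) :
    ADC.Cell.face e k (vert i) = vert i := by
  refine ADC.Cell.ext fun j d => ?_
  simp only [ADC.Cell.face_x, vert_x]
  split_ifs <;> first | rfl | omega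

/-- A zero cell is the vertex read off its bottom chain. -/
theorem face_zero_eq_vert (e : Bool) (p : (simplexADC a).Cell) (i : Fin (a + 1))
    (h : p.x 0 e = Finsupp.single ⟨{i}, Finset.singleton_nonempty i⟩ 1) :
    ADC.Cell.face e 0 p = vert i := by
  refine ADC.Cell.ext fun j d => ?_
  simp only [ADC.Cell.face_x, vert_x, Nat.not_lt_zero, if_false]
  split_ifs with hj
  · subst hj; exact h
  · rfl

/-- The initial vertex of a cell. -/
def srcV (hI : Spec.Interval) (p : (simplexADC a).Cell) : Fin (a + 1) := (hI a p).choose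

/-- The final vertex of a cell. -/
def tgtV (hI : Spec.Interval) (p : (simplexADC a).Cell) : Fin (a + 1) :=
  (hI a p).choose_spec.choose

variable (hI : Spec.Interval)

theorem s_zero (p : (simplexADC a).Cell) : ADC.Cell.face false 0 p = vert (srcV hI p) :=
  face_zero_eq_vert _ _ _ (hI a p).choose_spec.choose_spec.1

theorem t_zero (p : (simplexADC a).Cell) : ADC.Cell.face true 0 p = vert (tgtV hI p) :=
  face_zero_eq_vert _ _ _ (hI a p).choose_spec.choose_spec.2.1

theorem srcV_le_tgtV (p : (simplexADC a).Cell) : srcV hI p ≤ tgtV hI p :=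
  (hI a p).choose_spec.choose_spec.2.2.1

theorem mem_interval (p : (simplexADC a).Cell) {k : ℕ} {e : Bool} {s : (simplexADC a).B}
    (h : p.x k e s ≠ 0) {x : Fin (a + 1)} (hx : x ∈ s.1) : srcV hI p ≤ x ∧ x ≤ tgtV hI p :=
  (hI a p).choose_spec.choose_spec.2.2.2 k e s h x hx

theorem srcV_vert (i : Fin (a + 1)) : srcV hI (vert i) = i :=
  vert_injective ((s_zero hI _).symm.trans (face_vert _ _ _))

theorem tgtV_vert (i : Fin (a + 1)) : tgtV hI (vert i) = i :=
  vert_injective ((t_zero hI _).symm.trans (face_vert _ _ _))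

theorem obj_eq_vert (p : (simplexADC a).Cell) (h : ADC.Cell.face false 0 p = p) :
    p = vert (srcV hI p) := h.symm.trans (s_zero hI p)

theorem srcV_map (f : Fin (a + 1) →o Fin (b + 1)) (p : (simplexADC a).Cell) :
    srcV hI ((orientalMap f).toFun p) = f (srcV hI p) := by
  refine vert_injective ?_
  rw [← orientalMap_vert, ← s_zero hI, ← s_zero hI]
  exact ((orientalMap f).map_s 0 p).symm

theorem tgtV_map (f : Fin (a + 1) →o Fin (b + 1)) (p : (simplexADC a).Cell) :
    tgtV hI ((orientalMap f).toFun p) = f (tgtV hI p) := by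
  refine vert_injective ?_
  rw [← orientalMap_vert, ← t_zero hI, ← t_zero hI]
  exact ((orientalMap f).map_t 0 p).symm

/-- Only the values of a vertex map on the interval of a cell matter. -/
theorem orientalMap_congr (f g : Fin (a + 1) →o Fin (b + 1)) (p : (simplexADC a).Cell)
    (h : ∀ i, srcV hI p ≤ i → i ≤ tgtV hI p → f i = g i) :
    (orientalMap f).toFun p = (orientalMap g).toFun p := by
  refine ADC.Cell.ext fun k e => ?_
  show imageChain f (p.x k e) = imageChain g (p.x k e)
  refine Finsupp.sum_congr fun s hs => ?_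
  have he : s.1.image f = s.1.image g := Finset.image_congr fun x hx =>
    h x (mem_interval hI p (Finsupp.mem_support_iff.1 hs) hx).1
      (mem_interval hI p (Finsupp.mem_support_iff.1 hs) hx).2
  simp only [imageBasis, he]

theorem Fun.comp_assoc {A : OmCat.{u}} {B : OmCat.{v}} {C : OmCat.{w}} {D : OmCat.{w}}
    (F : Fun A B) (G : Fun B C) (H : Fun C D) : (F.comp G).comp H = F.comp (G.comp H) := rfl

/-- The edge of the one-simplex. -/
def edge : (simplexADC 1).Cell where
  x k e := if k = 0 then Finsupp.single ⟨{if e then 1 else 0}, Finset.singleton_nonempty _⟩ 1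
    else if k = 1 then Finsupp.single ⟨{0, 1}, Finset.insert_nonempty _ _⟩ 1 else 0
  deg_eq k e s hs := by
    split_ifs at hs with h0 h1 <;> simp at hs <;>
      (obtain rfl := (Finsupp.single_apply_ne_zero.1 hs).1; simp [*])
  aug e := by simp
  boundary k e := by
    rcases k with _ | _ | k
    · have he0 : ({0, 1} : Finset (Fin 2)).erase 0 = {1} := by decide
      have he1 : ({0, 1} : Finset (Fin 2)).erase 1 = {0} := by decide
      show (simplexADC 1).bd (Finsupp.single ⟨{0, 1}, Finset.insert_nonempty _ _⟩ 1) =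
        (simplexADC 1).toZ (Finsupp.single ⟨{1}, Finset.singleton_nonempty _⟩ 1) -
          (simplexADC 1).toZ (Finsupp.single ⟨{0}, Finset.singleton_nonempty _⟩ 1)
      refine ((simplexADC 1).bd_single _ _).trans ?_
      rw [one_smul]
      simp only [ADC.toZ, Finsupp.mapRange_single, Nat.cast_one]
      show (∑ x ∈ ({0, 1} : Finset (Fin (1 + 1))), _) = _
      rw [Finset.sum_pair (by decide), dif_pos (by rw [he0]; simp), dif_pos (by rw [he1]; simp)]
      have c0 : (({0, 1} : Finset (Fin 2)).filter (· < 0)).card = 0 := by decide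
      have c1 : (({0, 1} : Finset (Fin 2)).filter (· < 1)).card = 1 := by decide
      simp only [c0, c1, pow_zero, pow_one, he0, he1, Finsupp.single_neg, sub_eq_add_neg]
    · simp [ADC.bd_zero]
    · simp [ADC.bd_zero]
  bounded := ⟨1, fun k _ hk => by simp [show k ≠ 0 by omega, show k ≠ 1 by omega]⟩

/-- The objects of a simplex are joined by one-cells upwards. -/
theorem exists_edge_cell {i j : Fin (a + 1)} (h : i ≤ j) : ∃ p : (simplexADC a).Cell,
    ADC.Cell.face false 0 p = vert i ∧ ADC.Cell.face true 0 p = vert j := by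
  let θ : Fin (1 + 1) →o Fin (a + 1) :=
    ⟨fun x => if x = 0 then i else j, fun x y hxy => by
      fin_cases x <;> fin_cases y <;> simp_all⟩
  refine ⟨(orientalMap θ).toFun edge, ?_, ?_⟩
  · refine ((orientalMap θ).map_s 0 edge).symm.trans ?_
    rw [show (oriental 1).s 0 edge = vert 0 from face_zero_eq_vert _ _ _ rfl, orientalMap_vert]
    rfl
  · refine ((orientalMap θ).map_t 0 edge).symm.trans ?_
    rw [show (oriental 1).t 0 edge = vert 1 from face_zero_eq_vert _ _ _ rfl, orientalMap_vert]
    rfl

/-! ### Thin categories and labels -/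

open Classical in
/-- A poset as an omega-category. -/
abbrev thinCat (L : Type u) [PartialOrder L] : OmCat.{u} where
  carrier := {p : L × L // p.1 ≤ p.2}
  s k p := if k = 0 then ⟨(p.1.1, p.1.1), le_rfl⟩ else p
  t k p := if k = 0 then ⟨(p.1.2, p.1.2), le_rfl⟩ else p
  comp k p q := if h : k = 0 ∧ p.1.2 = q.1.1 then ⟨(p.1.1, q.1.2), p.2.trans (h.2 ▸ q.2)⟩ else p
  ss i j p := by rcases i with _ | i <;> rcases j with _ | j <;> simp
  st i j p := by rcases i with _ | i <;> rcases j with _ | j <;> simp
  ts i j p := by rcases i with _ | i <;> rcases j with _ | j <;> simp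
  tt i j p := by rcases i with _ | i <;> rcases j with _ | j <;> simp
  s_comp i n p q e := by
    obtain ⟨⟨p₁, p₂⟩, hp⟩ := p
    obtain ⟨⟨q₁, q₂⟩, hq⟩ := q
    rcases n with _ | n <;> rcases i with _ | i <;> simp_all
  t_comp i n p q e := by
    obtain ⟨⟨p₁, p₂⟩, hp⟩ := p
    obtain ⟨⟨q₁, q₂⟩, hq⟩ := q
    rcases n with _ | n <;> rcases i with _ | i <;> simp_all
  id_comp n p := by
    obtain ⟨⟨p₁, p₂⟩, hp⟩ := p
    rcases n with _ | n <;> simp
  comp_id n p := by
    obtain ⟨⟨p₁, p₂⟩, hp⟩ := p
    rcases n with _ | n <;> simp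
  assoc n p q r e1 e2 := by
    obtain ⟨⟨p₁, p₂⟩, hp⟩ := p
    obtain ⟨⟨q₁, q₂⟩, hq⟩ := q
    obtain ⟨⟨r₁, r₂⟩, hr⟩ := r
    rcases n with _ | n <;> simp_all
  interchange m n p p' q q' hmn e1 e2 e3 := by
    obtain ⟨⟨p₁, p₂⟩, hp⟩ := p
    obtain ⟨⟨p₁', p₂'⟩, hp'⟩ := p'
    obtain ⟨⟨q₁, q₂⟩, hq⟩ := q
    obtain ⟨⟨q₁', q₂'⟩, hq'⟩ := q'
    rcases n with _ | n
    · omega
    · rcases m with _ | m <;> simp_all
  bounded p := ⟨1, by simp⟩

theorem isNCat_thin {n : ℕ∞} (hn : 1 ≤ n) (L : Type u) [PartialOrder L] :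
    IsNCat n (thinCat L) := fun k hk p => by
  have hk0 : k ≠ 0 := by
    rintro rfl
    exact absurd (hn.trans hk) (by simp)
  simp [hk0]

/-- A poset as an `n`-category. -/
abbrev thin {n : ℕ∞} (hn : 1 ≤ n) (L : Type u) [PartialOrder L] : NCat.{u} n :=
  ⟨thinCat L, isNCat_thin hn L⟩

variable {X : OmCat.{v}} {L : Type u} [PartialOrder L]

/-- The labelling of a functor to a thin category. -/
def labelOf (F : Fun X (thinCat L)) (x : X.carrier) : L := (F.toFun x).1.1

theorem thin_s_fst (k : ℕ) (p : (thinCat L).carrier) : ((thinCat L).s k p).1.1 = p.1.1 := by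
  rcases k with _ | k <;> simp

theorem labelOf_s (F : Fun X (thinCat L)) (x : X.carrier) :
    labelOf F (X.s 0 x) = (F.toFun x).1.1 := by
  rw [labelOf, F.map_s]; exact thin_s_fst _ _

theorem labelOf_t (F : Fun X (thinCat L)) (x : X.carrier) :
    labelOf F (X.t 0 x) = (F.toFun x).1.2 := by
  rw [labelOf, F.map_t]; simp

theorem isLabel_labelOf (F : Fun X (thinCat L)) : X.IsLabel (labelOf F) := fun x => by
  rw [labelOf_s, labelOf_t]; exact (F.toFun x).2

theorem thin_hom_ext (F G : Fun X (thinCat L))
    (h : ∀ o, X.s 0 o = o → labelOf F o = labelOf G o) : F = G := by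
  refine Fun.ext fun x => Subtype.ext (Prod.ext ?_ ?_)
  · rw [← labelOf_s F, ← labelOf_s G]; exact h _ (by rw [X.ss]; rfl)
  · rw [← labelOf_t F, ← labelOf_t G]; exact h _ (by rw [X.st, if_neg (lt_irrefl 0)])

open Classical in
/-- The functor to a thin category given by a labelling. -/
def toThin (lab : X.carrier → L) (h : X.IsLabel lab) : Fun X (thinCat L) where
  toFun x := ⟨(lab (X.s 0 x), lab (X.t 0 x)), h x⟩
  map_s k x := by
    apply Subtype.ext
    rcases k with _ | k
    · simp [X.ts, X.ss]
    · simp [X.ts, X.ss]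
  map_t k x := by
    apply Subtype.ext
    rcases k with _ | k
    · simp [X.st, X.tt]
    · simp [X.st, X.tt]
  map_comp k x y e := by
    apply Subtype.ext
    have hs : X.s 0 (X.comp k x y) = X.s 0 x := by rw [X.s_comp 0 k x y e, if_pos (Nat.zero_le k)]
    have ht : X.t 0 (X.comp k x y) = X.t 0 y := by rw [X.t_comp 0 k x y e, if_pos (Nat.zero_le k)]
    rcases k with _ | k
    · simp [hs, ht, e]
    · have : X.t 0 y = X.t 0 x := by
        have h' := congrArg (X.t 0) e
        rw [X.tt, X.ts] at h'
        simpa using h'.symm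
      simp [hs, ht, this]

theorem labelOf_toThin (lab : X.carrier → L) (h : X.IsLabel lab) (o : X.carrier)
    (ho : X.s 0 o = o) : labelOf (toThin lab h) o = lab o := congrArg lab ho

/-- Labels of the objects of a simplex increase. -/
theorem label_mono (σ : Fun (oriental a) X) {lab : X.carrier → L} (h : X.IsLabel lab)
    {i j : Fin (a + 1)} (hij : i ≤ j) : lab (σ.toFun (vert i)) ≤ lab (σ.toFun (vert j)) := by
  obtain ⟨p, hs, ht⟩ := exists_edge_cell hij
  rw [← hs, ← ht]
  have := h (σ.toFun p)
  rwa [← σ.map_s, ← σ.map_t] at this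

/-- The functor sending everything to the object `o`. -/
def constFun (Y : OmCat.{w}) (o : Y.carrier) (ho : Y.s 0 o = o) : Fun X Y where
  toFun _ := o
  map_s k _ := by rw [← ho, Y.ss, min_eq_right (Nat.zero_le k)]
  map_t k _ := by rw [← ho, Y.ts, if_neg (Nat.not_lt_zero k)]
  map_comp k _ _ _ := by
    have : Y.s k o = o := by rw [← ho, Y.ss, min_eq_right (Nat.zero_le k)]
    conv_lhs => rw [← Y.id_comp k o, this]

/-! ### Simplices of nerves of posets -/

variable {E : Type u} [PartialOrder E] {Y Z : OmCat.{u}}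

/-- A monotone sequence as a simplex of the nerve. -/
abbrev mkS (w : Fin (a + 1) →o E) : (nerve E).obj (op (SimplexCategory.mk a)) :=
  w.monotone.functor

/-- The image of a monotone sequence. -/
def simp' (g : nerve E ⟶ streetNerve.obj Y) (w : Fin (a + 1) →o E) : Fun (oriental a) Y :=
  g.app (op (SimplexCategory.mk a)) (mkS w)

theorem simp'_natural (g : nerve E ⟶ streetNerve.obj Y) (w : Fin (a + 1) →o E)
    (θ : Fin (b + 1) →o Fin (a + 1)) :
    (orientalMap θ).comp (simp' g w) = simp' g (w.comp θ) := by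
  have h := NatTrans.naturality_apply (F := nerve E) (G := streetNerve.obj Y) g
    (Quiver.Hom.op (show SimplexCategory.mk b ⟶ SimplexCategory.mk a from SimplexCategory.Hom.mk θ)) (mkS w)
  refine h.symm.trans (congrArg (g.app (op (SimplexCategory.mk b))) ?_)
  exact ComposableArrows.ext (fun _ => rfl) (fun _ _ => Subsingleton.elim _ _)

/-- The monotone sequence of a simplex. -/
def seqOf {m : SimplexCategoryᵒᵖ} (s : (nerve E).obj m) : Fin (m.unop.len + 1) →o E :=
  ⟨s.obj, fun _ _ h => leOfHom (s.map (homOfLE h))⟩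

theorem mkS_seqOf {m : SimplexCategoryᵒᵖ} (s : (nerve E).obj m) : mkS (seqOf s) = s :=
  ComposableArrows.ext (fun _ => rfl) (fun _ _ => Subsingleton.elim _ _)

/-- A map out of the nerve of a poset from its values on monotone sequences. -/
def nerveHom (φ : ∀ a : ℕ, (Fin (a + 1) →o E) → Fun (oriental a) Y)
    (h : ∀ a b (w : Fin (a + 1) →o E) (θ : Fin (b + 1) →o Fin (a + 1)),
      (orientalMap θ).comp (φ a w) = φ b (w.comp θ)) :
    nerve E ⟶ streetNerve.obj Y where
  app m := TypeCat.ofHom fun s => φ m.unop.len (seqOf s)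
  naturality := by
    intro m k f
    refine ConcreteCategory.hom_ext _ _ fun s => ?_
    show φ k.unop.len (seqOf ((nerve E).map f s)) =
      (orientalMap f.unop.toOrderHom).comp (φ m.unop.len (seqOf s))
    rw [h]
    rfl

theorem simp'_nerveHom (φ : ∀ a : ℕ, (Fin (a + 1) →o E) → Fun (oriental a) Y)
    (h) (w : Fin (a + 1) →o E) : simp' (nerveHom φ h) w = φ a w := rfl

theorem nerve_hom_ext {g g' : nerve E ⟶ streetNerve.obj Y}
    (h : ∀ a (w : Fin (a + 1) →o E), simp' g w = simp' g' w) : g = g' := by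
  ext m s
  have := h m.unop.len (seqOf s)
  simp only [simp', mkS_seqOf] at this
  exact this

theorem simp'_comp (g : nerve E ⟶ streetNerve.obj Y) (F : Fun Y Z) (w : Fin (a + 1) →o E) :
    simp' (g ≫ streetNerve.map F) w = (simp' g w).comp F := rfl

theorem simp'_nerveMap {E' : Type u} [PartialOrder E'] (f : E →o E')
    (g : nerve E' ⟶ streetNerve.obj Y) (w : Fin (a + 1) →o E) :
    simp' (nerveMap f.monotone.functor ≫ g) w = simp' g (f.comp w) :=
  congrArg (g.app (op (SimplexCategory.mk a)))
    (ComposableArrows.ext (fun _ => rfl) (fun _ _ => Subsingleton.elim _ _))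

end

end Vale.Agent.P213.Cells
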