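import Vale.Agent.P213.Spec

/-!
# P213: the cone homotopy on simplices

For an up-closed set `P` of vertices of the `a`-simplex, adding the last vertex to every face that
meets `P` is a positive chain homotopy in the `(a+1)`-simplex from the inclusion to the map that
sends `P` to the last vertex. This is the only homotopy the proof needs.
-/

namespace Vale.Agent.P213.Cells

open CategoryTheory

noncomputable section

variable {a b : ℕ}

/-- The inclusion of the `a`-simplex as the face opposite to the last vertex. -/
abbrev fstMap (a : ℕ) : Fin (a + 1) →o Fin (a + 1 + 1) :=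
  ⟨Fin.castSucc, fun _ _ h => Fin.castSucc_le_castSucc_iff.2 h⟩

open Classical in
/-- The map sending an up-closed set to the last vertex. -/
def sndMap (P : Fin (a + 1) → Prop) (hP : Monotone P) : Fin (a + 1) →o Fin (a + 1 + 1) where
  toFun i := if P i then Fin.last _ else i.castSucc
  monotone' i j h := by
    dsimp only
    split_ifs with h1 h2 h2
    · exact le_rfl
    · exact absurd (hP h h1) h2
    · exact Fin.le_last _
    · exact Fin.castSucc_le_castSucc_iff.2 h

theorem sndMap_pos {P : Fin (a + 1) → Prop} {hP : Monotone P} {i : Fin (a + 1)} (h : P i) :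
    sndMap P hP i = Fin.last _ := if_pos h

theorem sndMap_neg {P : Fin (a + 1) → Prop} {hP : Monotone P} {i : Fin (a + 1)} (h : ¬P i) :
    sndMap P hP i = i.castSucc := if_neg h

/-- A face with the last vertex added. -/
def coneFace (c : (simplexADC a).B) : (simplexADC (a + 1)).B :=
  ⟨insert (Fin.last _) (c.1.image Fin.castSucc), Finset.insert_nonempty _ _⟩

theorem last_notMem (s : Finset (Fin (a + 1))) : Fin.last (a + 1) ∉ s.image Fin.castSucc := by
  simp [Fin.castSucc_ne_last]

theorem card_image_castSucc (s : Finset (Fin (a + 1))) : (s.image Fin.castSucc).card = s.card :=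
  Finset.card_image_of_injective _ (Fin.castSucc_injective _)

theorem imageBasis_fst (c : (simplexADC a).B) : imageBasis (fstMap a) c =
    Finsupp.single ⟨c.1.image Fin.castSucc, c.2.image _⟩ 1 :=
  if_pos (card_image_castSucc c.1)

open Classical in
/-- The faces meeting `P`, coned. -/
def coneH (P : Fin (a + 1) → Prop) (c : (simplexADC a).B) : (simplexADC (a + 1)).B →₀ ℕ :=
  if ∃ i ∈ c.1, P i then Finsupp.single (coneFace c) 1 else 0

open Classical in
theorem coneH_eq (P : Fin (a + 1) → Prop) (hP : Monotone P) (c : (simplexADC a).B) :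
    (simplexADC (a + 1)).bd (coneH P c) - extZ (coneH P) ((simplexADC a).d c) =
      (-1 : ℤ) ^ (simplexADC a).deg c •
        ((simplexADC (a + 1)).toZ (imageBasis (sndMap P hP) c) -
          (simplexADC (a + 1)).toZ (imageBasis (fstMap a) c)) := by
  obtain ⟨c, hc⟩ := c
  let single' : Fin (a + 1) → ((simplexADC (a + 1)).B →₀ ℤ) := fun x =>
    Finsupp.single ⟨insert (Fin.last _) ((c.erase x).image Fin.castSucc), Finset.insert_nonempty _ _⟩
      ((-1 : ℤ) ^ (c.filter (· < x)).card)
  have hext : extZ (coneH P) ((simplexADC a).d ⟨c, hc⟩) =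
      ∑ x ∈ c, if (∃ i ∈ c.erase x, P i) then single' x else 0 := by
    let E : ((simplexADC a).B →₀ ℤ) →+ ((simplexADC (a + 1)).B →₀ ℤ) :=
      { toFun := extZ (coneH P)
        map_zero' := Finsupp.sum_zero_index
        map_add' := fun x y =>
          Finsupp.sum_add_index' (fun _ => zero_smul ℤ _) fun _ _ _ => add_smul _ _ _ }
    change E (∑ x ∈ c, if h : (c.erase x).Nonempty then Finsupp.single ⟨c.erase x, h⟩ _ else 0) = _
    rw [map_sum]
    refine Finset.sum_congr rfl fun x _ => ?_
    by_cases h : (c.erase x).Nonempty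
    · rw [dif_pos h]
      change extZ (coneH P) (Finsupp.single _ _) = _
      rw [extZ, Finsupp.sum_single_index (by rw [zero_smul])]
      unfold coneH
      by_cases h' : ∃ i ∈ c.erase x, P i
      · rw [if_pos h', if_pos h', Finsupp.mapRange_single, Finsupp.smul_single]
        simp [single', coneFace]
      · rw [if_neg h', if_neg h']
        simp
    · rw [dif_neg h, map_zero, if_neg]
      rintro ⟨i, hi, -⟩
      exact h ⟨i, hi⟩
  rw [hext]
  by_cases hex : ∃ i ∈ c, P i
  swap
  · have h0 : coneH P ⟨c, hc⟩ = 0 := if_neg hex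
    have hg : imageBasis (sndMap P hP) ⟨c, hc⟩ = imageBasis (fstMap a) ⟨c, hc⟩ := by
      have e : c.image (sndMap P hP) = c.image (fstMap a) :=
        Finset.image_congr fun i hi => sndMap_neg fun h => hex ⟨i, hi, h⟩
      unfold imageBasis
      simp only [e]
    rw [h0, hg, ADC.bd_zero, sub_self, smul_zero, zero_sub, neg_eq_zero]
    exact Finset.sum_eq_zero fun x _ => if_neg fun ⟨i, hi, h⟩ =>
      hex ⟨i, Finset.mem_of_mem_erase hi, h⟩
  have h1 : (simplexADC (a + 1)).bd (coneH P ⟨c, hc⟩) =
      Finsupp.single ⟨c.image Fin.castSucc, hc.image _⟩ ((-1 : ℤ) ^ c.card) +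
        ∑ x ∈ c, single' x := by
    rw [coneH, if_pos hex, ADC.bd_single, one_smul]
    change (∑ y ∈ insert (Fin.last (a + 1)) (c.image Fin.castSucc), _) = _
    rw [Finset.sum_insert (last_notMem c), Finset.sum_image (fun _ _ _ _ h => Fin.castSucc_inj.1 h)]
    have e0 : (insert (Fin.last (a + 1)) (c.image Fin.castSucc)).erase (Fin.last _) =
        c.image Fin.castSucc := Finset.erase_insert (last_notMem c)
    refine congrArg₂ (· + ·) ?_ (Finset.sum_congr rfl fun x hx => ?_)
    · rw [dif_pos (by simp only [coneFace]; rw [e0]; exact hc.image _)]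
      refine congrArg₂ Finsupp.single (Subtype.ext e0) (congrArg _ ?_)
      rw [← card_image_castSucc c]
      refine congrArg Finset.card (Finset.ext fun y => ?_)
      simp only [coneFace, Finset.mem_filter, Finset.mem_insert, Finset.mem_image]
      constructor
      · rintro ⟨rfl | h, hlt⟩
        · exact absurd hlt (lt_irrefl _)
        · exact h
      · rintro ⟨i, hi, rfl⟩
        exact ⟨Or.inr ⟨i, hi, rfl⟩, Fin.castSucc_lt_last i⟩
    · have e1 : (insert (Fin.last (a + 1)) (c.image Fin.castSucc)).erase x.castSucc =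
          insert (Fin.last _) ((c.erase x).image Fin.castSucc) := by
        rw [Finset.erase_insert_of_ne (Fin.castSucc_ne_last x).symm,
          Finset.image_erase (Fin.castSucc_injective _)]
      rw [dif_pos (by simp only [coneFace]; rw [e1]; exact Finset.insert_nonempty _ _)]
      refine congrArg₂ Finsupp.single (Subtype.ext e1) (congrArg _ ?_)
      rw [← card_image_castSucc (c.filter (· < x))]
      refine congrArg Finset.card (Finset.ext fun y => ?_)
      simp only [coneFace, Finset.mem_filter, Finset.mem_insert, Finset.mem_image]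
      constructor
      · rintro ⟨rfl | ⟨i, hi, rfl⟩, hlt⟩
        · exact absurd hlt (not_lt.2 (Fin.le_last _))
        · exact ⟨i, ⟨hi, Fin.castSucc_lt_castSucc_iff.1 hlt⟩, rfl⟩
      · rintro ⟨i, ⟨hi, hlt⟩, rfl⟩
        exact ⟨Or.inr ⟨i, hi, rfl⟩, Fin.castSucc_lt_castSucc_iff.2 hlt⟩
  rw [h1, add_sub_assoc, ← Finset.sum_sub_distrib, imageBasis_fst, ADC.toZ, ADC.toZ,
    Finsupp.mapRange_single]
  change _ = (-1 : ℤ) ^ (c.card - 1) • _
  have hk : (-1 : ℤ) ^ c.card = -(-1 : ℤ) ^ (c.card - 1) := by
    obtain ⟨k, hk⟩ : ∃ k, c.card = k + 1 := ⟨c.card - 1, by have := Finset.card_pos.2 hc; omega⟩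
    rw [hk, Nat.add_sub_cancel, pow_succ]
    ring
  obtain ⟨v, hv, hPv⟩ := hex
  by_cases hone : ∀ i ∈ c, P i → i = v
  · -- exactly one vertex of the face lies in `P`; it is the largest
    have hmax : ∀ i ∈ c, i ≠ v → i < v := fun i hi hne =>
      (lt_or_gt_of_ne hne).resolve_right fun h => hne (hone i hi (hP h.le hPv))
    have hcard : (c.image (sndMap P hP)).card = c.card := by
      refine Finset.card_image_iff.2 fun i hi j hj e => ?_
      by_cases hPi : P i <;> by_cases hPj : P j
      · rw [hone i hi hPi, hone j hj hPj]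
      · rw [sndMap_pos hPi, sndMap_neg hPj] at e
        exact absurd e.symm (Fin.castSucc_ne_last j)
      · rw [sndMap_neg hPi, sndMap_pos hPj] at e
        exact absurd e (Fin.castSucc_ne_last i)
      · rw [sndMap_neg hPi, sndMap_neg hPj] at e
        exact Fin.castSucc_injective _ e
    have hg : c.image (sndMap P hP) = insert (Fin.last _) ((c.erase v).image Fin.castSucc) := by
      conv_lhs => rw [← Finset.insert_erase hv, Finset.image_insert, sndMap_pos hPv]
      refine congrArg _ (Finset.image_congr fun i hi => sndMap_neg fun h => ?_)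
      have hi' := Finset.mem_erase.1 hi
      exact hi'.1 (hone i hi'.2 h)
    have hsign : (c.filter (· < v)).card = c.card - 1 := by
      rw [← Finset.card_erase_of_mem hv]
      refine congrArg Finset.card (Finset.ext fun i => ?_)
      simp only [Finset.mem_filter, Finset.mem_erase]
      exact ⟨fun h => ⟨h.2.ne, h.1⟩, fun h => ⟨h.2, hmax i h.2 h.1⟩⟩
    rw [Finset.sum_eq_single v (fun x _ hxv => by
        rw [if_pos ⟨v, by simp [hv, Ne.symm hxv], hPv⟩, sub_self]) (fun h => absurd hv h),
      if_neg (fun ⟨i, hi, h⟩ => (Finset.mem_erase.1 hi).1 (hone i (Finset.mem_erase.1 hi).2 h)),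
      sub_zero]
    unfold imageBasis
    rw [if_pos hcard, Finsupp.mapRange_single]
    simp only [single', hsign, smul_sub, Finsupp.smul_single, hk, hg]
    simp only [smul_eq_mul, Nat.cast_one, mul_one, Finsupp.single_neg]
    abel
  · push Not at hone
    obtain ⟨w, hw, hPw, hne⟩ := hone
    have hg : imageBasis (sndMap P hP) ⟨c, hc⟩ = 0 := by
      refine if_neg fun h => hne ?_
      exact (Finset.card_image_iff.1 h) hw hv (by rw [sndMap_pos hPw, sndMap_pos hPv])
    rw [hg, Finsupp.mapRange_zero, zero_sub, smul_neg, Finset.sum_eq_zero, add_zero, hk,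
      Finsupp.smul_single, smul_eq_mul, Nat.cast_one, mul_one, Finsupp.single_neg]
    intro x _
    rw [if_pos, sub_self]
    by_cases hxv : x = v
    · exact ⟨w, by simp [hw, hxv, hne], hPw⟩
    · exact ⟨v, by simp [hv, Ne.symm hxv], hPv⟩

/-- The cone homotopy. -/
def coneData (P : Fin (a + 1) → Prop) (hP : Monotone P) : CylData a (a + 1) where
  f := fstMap a
  g := sndMap P hP
  h := coneH P
  deg_h c s hs := by
    unfold coneH at hs
    split_ifs at hs with h
    · obtain ⟨rfl, -⟩ := Finsupp.single_apply_ne_zero.1 hs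
      change (insert (Fin.last (a + 1)) (c.1.image Fin.castSucc)).card - 1 = c.1.card - 1 + 1
      rw [Finset.card_insert_of_notMem (last_notMem c.1), card_image_castSucc]
      have := Finset.card_pos.2 c.2
      omega
    · simp at hs
  eq := coneH_eq P hP

/-- The map of cones induced by a map of simplices. -/
def liftMap (θ : Fin (a + 1) →o Fin (b + 1)) : Fin (a + 1 + 1) →o Fin (b + 1 + 1) where
  toFun := Fin.lastCases (Fin.last _) fun i => (θ i).castSucc
  monotone' i j h := by
    dsimp only
    induction i using Fin.lastCases with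
    | last =>
      obtain rfl : j = Fin.last _ := le_antisymm (Fin.le_last _) h
      exact le_rfl
    | cast i =>
      induction j using Fin.lastCases with
      | last =>
        rw [Fin.lastCases_last, Fin.lastCases_castSucc]
        exact Fin.le_last _
      | cast j =>
        rw [Fin.lastCases_castSucc, Fin.lastCases_castSucc]
        exact Fin.castSucc_le_castSucc_iff.2 (θ.mono (Fin.castSucc_le_castSucc_iff.1 h))

theorem liftMap_last (θ : Fin (a + 1) →o Fin (b + 1)) :
    liftMap θ (Fin.last _) = Fin.last _ := by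
  show Fin.lastCases (motive := fun _ => Fin (b + 1 + 1)) _ _ (Fin.last (a + 1)) = _
  rw [Fin.lastCases_last]

theorem liftMap_castSucc (θ : Fin (a + 1) →o Fin (b + 1)) (i : Fin (a + 1)) :
    liftMap θ i.castSucc = (θ i).castSucc := by
  show Fin.lastCases (motive := fun _ => Fin (b + 1 + 1)) _ _ i.castSucc = _
  rw [Fin.lastCases_castSucc]

theorem fst_comp (θ : Fin (a + 1) →o Fin (b + 1)) :
    (fstMap b).comp θ = (liftMap θ).comp (fstMap a) :=
  OrderHom.ext _ _ (funext fun i => (liftMap_castSucc θ i).symm)

theorem snd_comp (θ : Fin (a + 1) →o Fin (b + 1)) (P : Fin (b + 1) → Prop) (hP : Monotone P)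
    (Q : Fin (a + 1) → Prop) (hQ : Monotone Q) (h : ∀ i, Q i ↔ P (θ i)) :
    (sndMap P hP).comp θ = (liftMap θ).comp (sndMap Q hQ) := by
  refine OrderHom.ext _ _ (funext fun i => ?_)
  change sndMap P hP (θ i) = liftMap θ (sndMap Q hQ i)
  by_cases hi : Q i
  · rw [sndMap_pos hi, sndMap_pos ((h i).1 hi), liftMap_last]
  · rw [sndMap_neg hi, sndMap_neg (fun e => hi ((h i).2 e)), liftMap_castSucc]

open Classical in
theorem coneH_natural (θ : Fin (a + 1) →o Fin (b + 1)) (P : Fin (b + 1) → Prop)
    (Q : Fin (a + 1) → Prop) (h : ∀ i, Q i ↔ P (θ i)) (c : (simplexADC a).B) :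
    extN (coneH P) (imageBasis θ c) = imageChain (liftMap θ) (coneH Q c) := by
  obtain ⟨c, hc⟩ := c
  have hiff : (∃ i ∈ c.image θ, P i) ↔ ∃ i ∈ c, Q i := by simp [h]
  have him : (insert (Fin.last (a + 1)) (c.image Fin.castSucc)).image (liftMap θ) =
      insert (Fin.last _) ((c.image θ).image Fin.castSucc) := by
    rw [Finset.image_insert, liftMap_last, Finset.image_image, Finset.image_image]
    exact congrArg _ (Finset.image_congr fun i _ => liftMap_castSucc θ i)
  by_cases hcard : (c.image θ).card = c.card
  · rw [imageBasis, if_pos hcard, extN]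
    refine Eq.trans (Finsupp.sum_single_index ?_) ?_
    · exact zero_smul ℕ _
    rw [one_smul]
    unfold coneH
    by_cases hq : ∃ i ∈ c, Q i
    · rw [if_pos hq, if_pos (hiff.2 hq), imageChain_single, one_smul, imageBasis, if_pos]
      · exact congrArg (Finsupp.single · 1) (Subtype.ext him.symm)
      · change ((insert (Fin.last (a + 1)) (c.image Fin.castSucc)).image (liftMap θ)).card =
          (insert (Fin.last (a + 1)) (c.image Fin.castSucc)).card
        rw [him, Finset.card_insert_of_notMem (last_notMem _),
          Finset.card_insert_of_notMem (last_notMem _), card_image_castSucc, card_image_castSucc,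
          hcard]
    · rw [if_neg hq, if_neg (fun e => hq (hiff.1 e)), imageChain_zero]
  · rw [imageBasis, if_neg hcard, extN, Finsupp.sum_zero_index]
    unfold coneH
    by_cases hq : ∃ i ∈ c, Q i
    · rw [if_pos hq, imageChain_single, one_smul, imageBasis, if_neg]
      change ¬((insert (Fin.last (a + 1)) (c.image Fin.castSucc)).image (liftMap θ)).card =
        (insert (Fin.last (a + 1)) (c.image Fin.castSucc)).card
      rw [him, Finset.card_insert_of_notMem (last_notMem _),
        Finset.card_insert_of_notMem (last_notMem _), card_image_castSucc, card_image_castSucc]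
      omega
    · rw [if_neg hq, imageChain_zero]

theorem coneH_eq_zero {P : Fin (a + 1) → Prop} (h : ∀ i, ¬P i) (c : (simplexADC a).B) :
    coneH P c = 0 := by
  classical
  exact if_neg fun ⟨i, _, hi⟩ => h i hi

theorem sndMap_eq_fst {P : Fin (a + 1) → Prop} (hP : Monotone P) (h : ∀ i, ¬P i) :
    fstMap a = sndMap P hP :=
  OrderHom.ext _ _ (funext fun i => (sndMap_neg (h i)).symm)

end

end Vale.Agent.P213.Cells
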