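import Vale.Agent.P213.Spec

/-!
# P213: the flags of the horn step (helper5)

Flags meeting the two faces outside the horn contract on the top face; those meeting also the horn
retract on the flags inside it.
-/

universe u

namespace Vale.Agent.P213.Cells

open CategoryTheory CategoryTheory.Limits Simplicial Opposite PartialOrder

noncomputable section

namespace HornFlags

variable {m : ℕ}

/-- The top face. -/
def top (m : ℕ) : Spec.Face.{u} m where
  finset := Finset.univ
  nonempty := Finset.univ_nonempty
  comparable a b := le_total a.1.down b.1.down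

open Classical in
/-- A flag with the top face added. -/
def addTop (c : Spec.Flag.{u} m) : Spec.Flag.{u} m where
  finset := insert (top m) c.finset
  nonempty := Finset.insert_nonempty _ _
  comparable a b := by
    rcases Finset.mem_insert.1 a.2 with ha | ha
    · exact .inr (show b.1 ≤ a.1 by rw [ha]; exact Finset.subset_univ _)
    rcases Finset.mem_insert.1 b.2 with hb | hb
    · exact .inl (show a.1 ≤ b.1 by rw [hb]; exact Finset.subset_univ _)
    exact c.comparable ⟨_, ha⟩ ⟨_, hb⟩

open Classical in
/-- The part of a flag inside `H`. -/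
def keep (H : Spec.Face.{u} m → Prop) (c : Spec.Flag.{u} m) (h : ∃ s ∈ c.finset, H s) :
    Spec.FlagIn m H :=
  ⟨{ finset := c.finset.filter H
     nonempty := h.imp fun _ hs => Finset.mem_filter.2 hs
     comparable := fun a b => c.comparable ⟨_, (Finset.mem_filter.1 a.2).1⟩
       ⟨_, (Finset.mem_filter.1 b.2).1⟩ },
    fun _ hs => (Finset.mem_filter.1 hs).2⟩

/-- The one-element flag at the top face. -/
def topFlag (m : ℕ) : Spec.Flag.{u} m where
  finset := {top m}
  nonempty := Finset.singleton_nonempty _
  comparable a b :=
    .inl (show a.1 ≤ b.1 from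
      le_of_eq ((Finset.mem_singleton.1 a.2).trans (Finset.mem_singleton.1 b.2).symm))

variable (H : Spec.Face.{u} m → Prop)

/-- Flags meeting the complement of `H`. -/
abbrev U : Type u := {c : Spec.Flag.{u} m // ∃ s ∈ c.finset, ¬H s}

/-- Flags meeting both. -/
abbrev V : Type u := {c : Spec.Flag.{u} m // (∃ s ∈ c.finset, H s) ∧ ∃ s ∈ c.finset, ¬H s}

/-- The inclusion. -/
abbrev incl : nerve (V H) ⟶ nerve (U H) :=
  nerveMap (Monotone.functor (f := fun c : V H => (⟨c.1, c.2.2⟩ : U H)) fun _ _ h => h)

open Classical in
/-- The inclusion of the flags meeting both is a weak equivalence. -/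
theorem weq_incl (hB : Spec.WeqBasic.{u}) (hH : Spec.WeqHomotopyEquiv.{u})
    (hN : Spec.NerveHomotopy.{u}) (hT : ¬H (top m))
    (hP' : Spec.weq (terminal.from (nerve (Spec.FlagIn m H)))) :
    Spec.weq (incl H) := by
  have := hB.1
  -- the flags meeting the complement contract
  have hU : Spec.weq (terminal.from (nerve (U H))) := by
    let t : U H := ⟨topFlag m, top m, Finset.mem_singleton_self _, hT⟩
    let v : (nerve (U H)) _⦋0⦌ := ComposableArrows.mk₀ t
    let a : U H → U H := fun c => ⟨addTop c.1, top m, Finset.mem_insert_self _ _, hT⟩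
    have ha : Monotone a := fun _ _ h => Finset.insert_subset_insert _ h
    refine hH _ _ _ (SSet.const v) ?_ ?_
    · have e1 : nerveMap (monotone_id (α := U H)).functor = 𝟙 _ := by
        apply NatTrans.ext
        funext k
        exact ConcreteCategory.hom_ext _ _ fun y => nerve.ext_of_isThin (C := U H) rfl
      have e2 : nerveMap (monotone_const (α := U H) (c := t)).functor = SSet.const v := by
        apply NatTrans.ext
        funext k
        exact ConcreteCategory.hom_ext _ _ fun y => nerve.ext_of_isThin (C := U H) rfl
      rw [SSet.comp_const, ← e1, ← e2]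
      exact (hN _ _ _ a monotone_const ha fun c =>
        Finset.singleton_subset_iff.2 (Finset.mem_insert_self _ _)).trans _ _ _
        ((hN _ _ _ a monotone_id ha fun c => Finset.subset_insert _ _).symm _ _)
    · rw [terminalIsTerminal.hom_ext (SSet.const v ≫ terminal.from _) (𝟙 _)]
      exact Relation.EqvGen.refl _
  -- the flags meeting both retract on those inside `H`
  let r : V H → Spec.FlagIn m H := fun c => keep H c.1 c.2.1
  have hr : Monotone r := fun _ _ h => Finset.filter_subset_filter _ h
  let s : Spec.FlagIn m H → V H := fun d => ⟨addTop d.1,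
    d.1.nonempty.imp fun x hx => ⟨Finset.mem_insert_of_mem hx, d.2 x hx⟩,
    top m, Finset.mem_insert_self _ _, hT⟩
  have hs : Monotone s := fun _ _ h => Finset.insert_subset_insert _ h
  let a : V H → V H := fun c => ⟨addTop c.1,
    c.2.1.imp fun x hx => ⟨Finset.mem_insert_of_mem hx.1, hx.2⟩,
    top m, Finset.mem_insert_self _ _, hT⟩
  have ha : Monotone a := fun _ _ h => Finset.insert_subset_insert _ h
  have hV : Spec.weq (nerveMap hr.functor) := by
    refine hH _ _ _ (nerveMap hs.functor) ?_ ?_
    · have e1 : nerveMap (monotone_id (α := V H)).functor = 𝟙 _ := by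
        apply NatTrans.ext
        funext k
        exact ConcreteCategory.hom_ext _ _ fun y => nerve.ext_of_isThin (C := V H) rfl
      have e2 : nerveMap hr.functor ≫ nerveMap hs.functor = nerveMap (hs.comp hr).functor := by
        apply NatTrans.ext
        funext k
        exact ConcreteCategory.hom_ext _ _ fun y => nerve.ext_of_isThin (C := V H) rfl
      rw [e2, ← e1]
      exact (hN _ _ _ a (hs.comp hr) ha fun c =>
        Finset.insert_subset_insert _ (Finset.filter_subset _ _)).trans _ _ _
        ((hN _ _ _ a monotone_id ha fun c => Finset.subset_insert _ _).symm _ _)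
    · have e : nerveMap hs.functor ≫ nerveMap hr.functor = 𝟙 _ := by
        apply NatTrans.ext
        funext k
        refine ConcreteCategory.hom_ext _ _ fun y =>
          nerve.ext_of_isThin (C := Spec.FlagIn m H) (funext fun i => ?_)
        refine Subtype.ext (NonemptyFiniteChains.ext (Finset.ext fun x => ?_))
        show x ∈ (insert (top m) (y.obj i).1.finset).filter H ↔ x ∈ (y.obj i).1.finset
        rw [Finset.mem_filter, Finset.mem_insert]
        exact ⟨fun h => h.1.resolve_left fun e => hT (e ▸ h.2),
          fun hx => ⟨.inr hx, (y.obj i).2 x hx⟩⟩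
      rw [e]
      exact Relation.EqvGen.refl _
  have h2 : Spec.weq (nerveMap hr.functor ≫ terminal.from _) :=
    Spec.weq.comp_mem _ _ hV hP'
  rw [terminal.hom_ext (nerveMap hr.functor ≫ terminal.from _)
    (incl H ≫ terminal.from _)] at h2
  exact Spec.weq.of_postcomp (incl H) (terminal.from _) hU h2

end HornFlags

/-- The horn step on flags: those meeting both sides include by a weak equivalence into those
meeting the outside. -/
theorem weq_hornFlags (hB : Spec.WeqBasic.{u}) (hH : Spec.WeqHomotopyEquiv.{u})
    (hN : Spec.NerveHomotopy.{u}) (m : ℕ) (i : Fin (m + 2))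
    (hP' : Spec.weq (terminal.from (nerve (Spec.FlagIn.{u} (m + 1)
      fun s => ∃ j, j ≠ ULift.up i ∧ j ∉ s.finset)))) :
    Spec.weq (HornFlags.incl.{u} (m := m + 1) fun s => ∃ j, j ≠ ULift.up i ∧ j ∉ s.finset) :=
  HornFlags.weq_incl _ hB hH hN (fun ⟨j, _, hj⟩ => hj (Finset.mem_univ j)) hP'

end

end Vale.Agent.P213.Cells
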