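import Vale.Agent.P213.Cells.Basic

/-!
# P213: full parts of free categories on posets and of pushouts
-/

namespace Vale.Agent.P213.Cells

open CategoryTheory CategoryTheory.Limits Opposite Simplicial

universe u v w

noncomputable section

open Classical in
/-- A small omega-category in a larger universe. -/
abbrev liftCat (X : OmCat.{0}) : OmCat.{u} where
  carrier := ULift.{u} X.carrier
  s k x := ⟨X.s k x.down⟩
  t k x := ⟨X.t k x.down⟩
  comp k x y := ⟨X.comp k x.down y.down⟩
  ss i j x := congrArg ULift.up (X.ss i j x.down)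
  st i j x := by
    refine (congrArg ULift.up (X.st i j x.down)).trans ?_
    split_ifs <;> rfl
  ts i j x := by
    refine (congrArg ULift.up (X.ts i j x.down)).trans ?_
    split_ifs <;> rfl
  tt i j x := congrArg ULift.up (X.tt i j x.down)
  s_comp i n x y e := by
    refine (congrArg ULift.up (X.s_comp i n x.down y.down (congrArg ULift.down e))).trans ?_
    split_ifs <;> rfl
  t_comp i n x y e := by
    refine (congrArg ULift.up (X.t_comp i n x.down y.down (congrArg ULift.down e))).trans ?_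
    split_ifs <;> rfl
  id_comp k x := congrArg ULift.up (X.id_comp k x.down)
  comp_id k x := congrArg ULift.up (X.comp_id k x.down)
  assoc k x y z e1 e2 :=
    congrArg ULift.up (X.assoc k _ _ _ (congrArg ULift.down e1) (congrArg ULift.down e2))
  interchange m k x x' y y' h e1 e2 e3 := congrArg ULift.up
    (X.interchange m k _ _ _ _ h (congrArg ULift.down e1) (congrArg ULift.down e2)
      (congrArg ULift.down e3))
  bounded x := (X.bounded x.down).imp fun _ hk => congrArg ULift.up hk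

/-- Into the larger universe. -/
def liftUp (X : OmCat.{0}) : Fun X (liftCat.{u} X) :=
  ⟨ULift.up, fun _ _ => rfl, fun _ _ => rfl, fun _ _ _ _ => rfl⟩

/-- Back from the larger universe. -/
def liftDown (X : OmCat.{0}) : Fun (liftCat.{u} X) X :=
  ⟨ULift.down, fun _ _ => rfl, fun _ _ => rfl, fun _ _ _ _ => rfl⟩

theorem fullMap_x {X : OmCat.{w}} {Y : OmCat.{u}} (F : Fun X Y) {P : X.carrier → Prop}
    {Q : Y.carrier → Prop} (h : ∀ o, X.s 0 o = o → P o → Q (F.toFun o)) (x : (X.full P).carrier) :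
    ((OmCat.fullMap F h).toFun x).1 = F.toFun x.1 := rfl

/-- A chosen right adjoint of restriction to `D`, evaluated at `Z`. -/
structure Rest {L : Type u} [PartialOrder L] (D : Set L) (Z : OmCat.{u}) where
  R : OmCat.{u}
  lab : R.carrier → L
  e : Fun (R.full fun o => lab o ∈ D) Z
  isLabel : R.IsLabel lab
  isNCat : ∀ n : ℕ∞, 1 ≤ n → IsNCat n Z → IsNCat n R
  lift : ∀ (Y : OmCat.{u}) (l : Y.carrier → L), Y.IsLabel l →
    Fun (Y.full fun o => l o ∈ D) Z → Fun Y R
  lift_lab : ∀ Y l hl φ, ∀ o, Y.s 0 o = o → lab ((lift Y l hl φ).toFun o) = l o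
  lift_fac : ∀ Y l hl φ (x : (Y.full fun o => l o ∈ D).carrier)
    (h : lab (R.s 0 ((lift Y l hl φ).toFun x.1)) ∈ D ∧ lab (R.t 0 ((lift Y l hl φ).toFun x.1)) ∈ D),
    e.toFun ⟨(lift Y l hl φ).toFun x.1, h⟩ = φ.toFun x
  lift_uniq : ∀ Y l hl φ (Φ : Fun Y R), (∀ o, Y.s 0 o = o → lab (Φ.toFun o) = l o) →
    (∀ (x : (Y.full fun o => l o ∈ D).carrier)
      (h : lab (R.s 0 (Φ.toFun x.1)) ∈ D ∧ lab (R.t 0 (Φ.toFun x.1)) ∈ D),
      e.toFun ⟨Φ.toFun x.1, h⟩ = φ.toFun x) → Φ = lift Y l hl φ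

theorem nonempty_rest (hR : Spec.Restrict.{u, u}) {L : Type u} [PartialOrder L] (D : Set L)
    (hD : D.OrdConnected) (Z : OmCat.{u}) : Nonempty (Rest.{u} D Z) := by
  obtain ⟨R, lab, e, hl, hn, huniv⟩ := hR L D hD Z
  choose Φ hΦ huq using huniv
  refine ⟨⟨R, lab, e, hl, hn, fun Y l hl' φ => Φ Y l hl' φ, fun Y l hl' φ => (hΦ Y l hl' φ).1,
    fun Y l hl' φ x h => ?_, fun Y l hl' φ Ψ h1 h2 => ?_⟩⟩
  · exact congrArg (fun F => Fun.toFun F x) (hΦ Y l hl' φ).2
  · refine huq Y l hl' φ Ψ ⟨h1, Fun.ext fun x => ?_⟩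
    exact h2 x _

namespace Rest

variable {L : Type u} [PartialOrder L] {D : Set L} {Z : OmCat.{u}} (R : Rest.{u} D Z)

theorem mem_of {Y : OmCat.{u}} {l : Y.carrier → L} {Φ : Fun Y R.R}
    (h : ∀ o, Y.s 0 o = o → R.lab (Φ.toFun o) = l o) (x : (Y.full fun o => l o ∈ D).carrier) :
    R.lab (R.R.s 0 (Φ.toFun x.1)) ∈ D ∧ R.lab (R.R.t 0 (Φ.toFun x.1)) ∈ D := by
  rw [← Φ.map_s, ← Φ.map_t, h _ (by rw [Y.ss]; rfl), h _ (by rw [Y.st, if_neg (lt_irrefl 0)])]
  exact x.2

/-- Two functors into the right adjoint agree if they agree on labels and on the part in `D`. -/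
theorem hom_ext {Y : OmCat.{u}} {l : Y.carrier → L} (hl : Y.IsLabel l) {Φ Ψ : Fun Y R.R}
    (h1 : ∀ o, Y.s 0 o = o → R.lab (Φ.toFun o) = l o)
    (h2 : ∀ o, Y.s 0 o = o → R.lab (Ψ.toFun o) = l o)
    (h : ∀ (x : (Y.full fun o => l o ∈ D).carrier),
      R.e.toFun ⟨Φ.toFun x.1, R.mem_of h1 x⟩ = R.e.toFun ⟨Ψ.toFun x.1, R.mem_of h2 x⟩) :
    Φ = Ψ := by
  let φ : Fun (Y.full fun o => l o ∈ D) Z :=
    (OmCat.fullMap Φ fun o ho (hP : l o ∈ D) =>
      show R.lab (Φ.toFun o) ∈ D by rw [h1 o ho]; exact hP).comp R.e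
  exact (R.lift_uniq Y l hl φ Φ h1 fun _ _ => rfl).trans
    (R.lift_uniq Y l hl φ Ψ h2 fun x _ => (h x).symm).symm

end Rest

variable {n : ℕ∞} (hn : 1 ≤ n) {c : SSet.{u} ⥤ NCat.{u} n} (adj : c ⊣ nerveN n)

/-- The free category on the nerve of a poset. -/
abbrev free (c : SSet.{u} ⥤ NCat.{u} n) (E : Type u) [PartialOrder E] : NCat.{u} n :=
  c.obj (nerve E)

variable {E E' : Type u} [PartialOrder E] [PartialOrder E'] {a b : ℕ}

/-- The universal simplex of a monotone sequence. -/
def sig (w : Fin (a + 1) →o E) : Fun (oriental a) (free c E).obj :=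
  simp' (Y := (free c E).obj) (adj.unit.app (nerve E)) w

theorem sig_natural (w : Fin (a + 1) →o E) (θ : Fin (b + 1) →o Fin (a + 1)) :
    (orientalMap θ).comp (sig adj w) = sig adj (w.comp θ) :=
  simp'_natural (Y := (free c E).obj) _ w θ

/-- The functor between free categories of a monotone map. -/
abbrev freeMap (c : SSet.{u} ⥤ NCat.{u} n) (f : E →o E') : free c E ⟶ free c E' :=
  c.map (nerveMap f.monotone.functor)

/-- The transpose of a map out of a nerve. -/
def freeLift {X : NCat.{u} n} (g : nerve E ⟶ (nerveN n).obj X) : free c E ⟶ X :=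
  (adj.homEquiv _ _).symm g

theorem sig_freeLift {X : NCat.{u} n} (g : nerve E ⟶ (nerveN n).obj X) (w : Fin (a + 1) →o E) :
    (sig adj w).comp (freeLift adj g).hom = simp' (Y := X.obj) g w := by
  have h : adj.unit.app (nerve E) ≫ (nerveN n).map (freeLift adj g) = g := by
    refine ((adj.homEquiv_unit _ _ _).symm).trans ?_
    exact (adj.homEquiv _ _).apply_symm_apply g
  exact (simp'_comp (Y := (free c E).obj) _ (freeLift adj g).hom w).symm.trans
    (congrArg (fun k => simp' (Y := X.obj) k w) h)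

theorem sig_freeMap (f : E →o E') (w : Fin (a + 1) →o E) :
    (sig adj w).comp (freeMap c f).hom = sig adj (f.comp w) := by
  refine (simp'_comp (Y := (free c E).obj) _ (freeMap c f).hom w).symm.trans ?_
  refine (congrArg (fun k => simp' (Y := (free c E').obj) k w)
    (adj.unit.naturality (nerveMap f.monotone.functor)).symm).trans ?_
  exact simp'_nerveMap (Y := (free c E').obj) f _ w

include adj in
theorem free_hom_ext {X : NCat.{u} n} {f f' : free c E ⟶ X}
    (h : ∀ a (w : Fin (a + 1) →o E), (sig adj w).comp f.hom = (sig adj w).comp f'.hom) :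
    f = f' := by
  refine (adj.homEquiv _ _).injective ?_
  rw [adj.homEquiv_unit, adj.homEquiv_unit]
  refine nerve_hom_ext (Y := X.obj) fun a w => ?_
  exact h a w

/-! ### Labels on free categories -/

variable (hI : Spec.Interval) {L : Type u} [PartialOrder L]

include hI in
theorem isLabel_seq (w : Fin (a + 1) →o L) :
    (oriental a).IsLabel fun p => w (srcV hI p) := by
  intro p
  show w (srcV hI (ADC.Cell.face false 0 p)) ≤ w (srcV hI (ADC.Cell.face true 0 p))
  rw [s_zero hI, t_zero hI, srcV_vert, srcV_vert]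
  exact w.mono (srcV_le_tgtV hI p)

/-- The labels of the simplices. -/
def seqThin (ℓ : E →o L) : nerve E ⟶ streetNerve.obj (thinCat L) :=
  nerveHom (fun a w => toThin (fun p => (ℓ.comp w) (srcV hI p)) (isLabel_seq hI (ℓ.comp w)))
    fun a b w θ => thin_hom_ext _ _ fun o _ => by
      have h1 : ∀ q : (simplexADC a).Cell, srcV hI (ADC.Cell.face false 0 q) = srcV hI q :=
        fun q => by rw [s_zero hI q, srcV_vert]
      show (ℓ.comp w) (srcV hI (ADC.Cell.face false 0 ((orientalMap θ).toFun o))) =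
        (ℓ.comp (w.comp θ)) (srcV hI (ADC.Cell.face false 0 o))
      rw [h1, srcV_map, s_zero hI o, srcV_vert]
      rfl

/-- The labelling functor of a monotone map. -/
def labFun (ℓ : E →o L) : free c E ⟶ thin hn L :=
  freeLift adj (X := thin hn L) (seqThin hI ℓ)

theorem labelOf_sig (ℓ : E →o L) (w : Fin (a + 1) →o E) (p : (simplexADC a).Cell)
    (hp : ADC.Cell.face false 0 p = p) :
    labelOf (labFun hn adj hI ℓ).hom ((sig adj w).toFun p) = ℓ (w (srcV hI p)) := by
  have h := congrArg (fun F => labelOf F p)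
    (sig_freeLift adj (X := thin hn L) (seqThin hI ℓ) w)
  refine h.trans ?_
  rw [seqThin, simp'_nerveHom]
  exact labelOf_toThin _ (isLabel_seq hI (ℓ.comp w)) p hp

theorem labFun_natural (ℓ : E' →o L) (f : E →o E') :
    freeMap c f ≫ labFun hn adj hI ℓ = labFun hn adj hI (ℓ.comp f) := by
  refine free_hom_ext adj fun a w => ?_
  show ((sig adj w).comp (freeMap c f).hom).comp (labFun hn adj hI ℓ).hom = _
  rw [sig_freeMap]
  refine thin_hom_ext _ _ fun o ho => ?_
  exact (labelOf_sig hn adj hI ℓ (f.comp w) o ho).trans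
    (labelOf_sig hn adj hI (ℓ.comp f) w o ho).symm

theorem labelOf_monotone {L' : Type u} [PartialOrder L'] (ℓ : E →o L) (k : L →o L')
    (x : (free c E).obj.carrier) (hx : (free c E).obj.s 0 x = x) :
    labelOf (labFun hn adj hI (k.comp ℓ)).hom x = k (labelOf (labFun hn adj hI ℓ).hom x) := by
  have hl : (free c E).obj.IsLabel fun y => k (labelOf (labFun hn adj hI ℓ).hom y) :=
    fun y => k.mono (isLabel_labelOf _ y)
  have h : labFun hn adj hI (k.comp ℓ) = ObjectProperty.homMk (toThin _ hl) := by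
    refine free_hom_ext adj fun a w => thin_hom_ext _ _ fun o ho => ?_
    refine (labelOf_sig hn adj hI (k.comp ℓ) w o ho).trans ?_
    refine Eq.trans ?_ (labelOf_toThin _ hl _ (by rw [← (sig adj w).map_s]; exact congrArg _ ho)).symm
    exact congrArg k (labelOf_sig hn adj hI ℓ w o ho).symm
  rw [h]
  exact labelOf_toThin _ hl x hx

/-! ### The free category on a convex part -/

/-- The elements with label in `D`. -/
abbrev Part (ℓ : E →o L) (D : Set L) : Type u := {e : E // ℓ e ∈ D}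

/-- The inclusion of the elements with label in `D`. -/
abbrev partIncl (ℓ : E →o L) (D : Set L) : Part ℓ D →o E := ⟨fun e => e.1, fun _ _ h => h⟩

include hI in
theorem sig_congr (r r' : Fin (a + 1) →o E) (p : (simplexADC a).Cell)
    (h : ∀ i, srcV hI p ≤ i → i ≤ tgtV hI p → r i = r' i) :
    (sig adj r).toFun p = (sig adj r').toFun p := by
  let q : Fin (a + 1) →o Fin (a + 1) :=
    ⟨fun i => max (srcV hI p) (min (tgtV hI p) i), fun i j hij =>
      max_le_max le_rfl (min_le_min le_rfl hij)⟩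
  have hq : ∀ i, srcV hI p ≤ q i ∧ q i ≤ tgtV hI p := fun i =>
    ⟨le_max_left _ _, max_le (srcV_le_tgtV hI p) (min_le_left _ _)⟩
  have hp : (orientalMap q).toFun p = p := by
    rw [orientalMap_congr hI q OrderHom.id p fun i h1 h2 => by
      show max (srcV hI p) (min (tgtV hI p) i) = i
      rw [min_eq_right h2, max_eq_right h1]]
    rw [orientalMap_id]
    rfl
  have e : r.comp q = r'.comp q :=
    OrderHom.ext _ _ (funext fun i => h _ (hq i).1 (hq i).2)
  have h1 := congrArg (fun F => Fun.toFun F p) (sig_natural adj r q)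
  have h2 := congrArg (fun F => Fun.toFun F p) (sig_natural adj r' q)
  simp only [Fun.comp, hp] at h1 h2
  rw [h1, h2, e]

include hI in
theorem exists_part_simplex (ℓ : E →o L) (D : Set L) (hD : D.OrdConnected)
    (w : Fin (a + 1) →o E) :
    ∃ φ : Fun ((oriental a).full fun o => ℓ (w (srcV hI o)) ∈ D) (free c (Part ℓ D)).obj,
      ∀ p, ∀ r : Fin (a + 1) →o Part ℓ D,
        (∀ i, srcV hI p.1 ≤ i → i ≤ tgtV hI p.1 → (r i).1 = w i) →
        φ.toFun p = (sig adj r).toFun p.1 := by
  classical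
  have key : ∀ p : ((oriental a).full fun o => ℓ (w (srcV hI o)) ∈ D).carrier,
      ℓ (w (srcV hI p.1)) ∈ D ∧ ℓ (w (tgtV hI p.1)) ∈ D := fun p => by
    have h := p.2
    change ℓ (w (srcV hI (ADC.Cell.face false 0 p.1))) ∈ D ∧
      ℓ (w (srcV hI (ADC.Cell.face true 0 p.1))) ∈ D at h
    rwa [s_zero hI, t_zero hI, srcV_vert, srcV_vert] at h
  let S : Finset (Fin (a + 1)) := Finset.univ.filter fun i => ℓ (w i) ∈ D
  by_cases hS : S.Nonempty
  swap
  · have he : ∀ p : ((oriental a).full fun o => ℓ (w (srcV hI o)) ∈ D).carrier, False :=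
      fun p => hS ⟨srcV hI p.1, by simp [S, (key p).1]⟩
    exact ⟨⟨fun p => (he p).elim, fun _ p => (he p).elim, fun _ p => (he p).elim,
      fun _ p _ _ => (he p).elim⟩, fun p => (he p).elim⟩
  have hmem : ∀ i, S.min' hS ≤ i → i ≤ S.max' hS → ℓ (w i) ∈ D := fun i h1 h2 => by
    have hlo := (Finset.mem_filter.1 (S.min'_mem hS)).2
    have hhi := (Finset.mem_filter.1 (S.max'_mem hS)).2
    exact hD.out hlo hhi ⟨ℓ.mono (w.mono h1), ℓ.mono (w.mono h2)⟩
  let r : Fin (a + 1) →o Part ℓ D :=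
    ⟨fun i => ⟨w (max (S.min' hS) (min (S.max' hS) i)), hmem _ (le_max_left _ _)
      (max_le (S.min'_le_max' hS) (min_le_left _ _))⟩,
      fun i j hij => w.mono (max_le_max le_rfl (min_le_min le_rfl hij))⟩
  refine ⟨((oriental a).fullι _).comp (sig adj r), fun p r' hr' => ?_⟩
  refine sig_congr adj hI r r' p.1 fun i h1 h2 => Subtype.ext ?_
  have hin : ℓ (w i) ∈ D := hD.out (key p).1 (key p).2 ⟨ℓ.mono (w.mono h1), ℓ.mono (w.mono h2)⟩
  have hiS : i ∈ S := by simp [S, hin]
  rw [hr' i h1 h2]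
  show w (max (S.min' hS) (min (S.max' hS) i)) = w i
  rw [min_eq_right (S.le_max' i hiS), max_eq_right (S.min'_le i hiS)]

/-- The full part of a free category on the labels in `D`. -/
abbrev freeFull (ℓ : E →o L) (D : Set L) : NCat.{u} n :=
  fullN (free c E) fun o => labelOf (labFun hn adj hI ℓ).hom o ∈ D

theorem partIncl_mem (ℓ : E →o L) (D : Set L) (x : (free c (Part ℓ D)).obj.carrier)
    (hx : (free c (Part ℓ D)).obj.s 0 x = x) :
    labelOf (labFun hn adj hI ℓ).hom ((freeMap c (partIncl ℓ D)).hom.toFun x) ∈ D := by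
  have h1 : labelOf (labFun hn adj hI ℓ).hom ((freeMap c (partIncl ℓ D)).hom.toFun x) =
      labelOf (labFun hn adj hI (ℓ.comp (partIncl ℓ D))).hom x :=
    congrArg (fun F : free c (Part ℓ D) ⟶ thin hn L => labelOf F.hom x)
      (labFun_natural hn adj hI ℓ (partIncl ℓ D))
  rw [h1]
  let ℓ' : Part ℓ D →o D := ⟨fun e => ⟨ℓ e.1, e.2⟩, fun _ _ h => ℓ.mono h⟩
  have h2 := labelOf_monotone hn adj hI ℓ' ⟨fun d => d.1, fun _ _ h => h⟩ x hx
  rw [show ℓ.comp (partIncl ℓ D) = (⟨fun d => d.1, fun _ _ h => h⟩ : D →o L).comp ℓ' from rfl, h2]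
  exact (labelOf (labFun hn adj hI ℓ').hom x).2

/-- The comparison from the free category on the part with labels in `D`. -/
def partMap (ℓ : E →o L) (D : Set L) : free c (Part ℓ D) ⟶ freeFull hn adj hI ℓ D :=
  ObjectProperty.homMk ((free c E).obj.toSub (freeMap c (partIncl ℓ D)).hom _ ((free c E).obj.full_closed fun o => labelOf (labFun hn adj hI ℓ).hom o ∈ D) fun x => by
    rw [← (freeMap c (partIncl ℓ D)).hom.map_s, ← (freeMap c (partIncl ℓ D)).hom.map_t]
    exact ⟨partIncl_mem hn adj hI ℓ D _ (((free c (Part ℓ D)).obj.ss 0 0 x).trans rfl),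
      partIncl_mem hn adj hI ℓ D _
        (((free c (Part ℓ D)).obj.st 0 0 x).trans (if_neg (lt_irrefl 0)))⟩)

theorem partMap_toFun (ℓ : E →o L) (D : Set L) (x : (free c (Part ℓ D)).obj.carrier) :
    ((partMap hn adj hI ℓ D).hom.toFun x).1 = (freeMap c (partIncl ℓ D)).hom.toFun x := rfl

theorem sig_label (ℓ : E →o L) (w : Fin (a + 1) →o E) (o : (oriental a).carrier)
    (ho : (oriental a).s 0 o = o) :
    labelOf (labFun hn adj hI ℓ).hom ((sig adj w).toFun o) = ℓ (w (srcV hI o)) :=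
  labelOf_sig hn adj hI ℓ w o ho

/-- A simplex restricted to the labels in `D`. -/
def fullSig (ℓ : E →o L) (D : Set L) (w : Fin (a + 1) →o E) :
    Fun ((oriental a).full fun o => ℓ (w (srcV hI o)) ∈ D) (freeFull hn adj hI ℓ D).obj :=
  OmCat.fullMap (sig adj w) (Q := fun o => labelOf (labFun hn adj hI ℓ).hom o ∈ D)
    fun o ho hP => by rw [sig_label hn adj hI ℓ w o ho]; exact hP

variable (hR : Spec.Restrict.{u, u})

/-- The labels of a simplex, on the lifted oriental. -/
abbrev seqLab (ℓ : E →o L) (w : Fin (a + 1) →o E) : (liftCat.{u} (oriental a)).carrier → L :=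
  fun o => ℓ (w (srcV hI o.down))

include hI in
theorem isLabel_seqLab (ℓ : E →o L) (w : Fin (a + 1) →o E) :
    (liftCat.{u} (oriental a)).IsLabel (seqLab hI ℓ w) :=
  fun x => isLabel_seq hI (ℓ.comp w) x.down

include hR in
theorem freeFull_hom_ext (ℓ : E →o L) (D : Set L) (hD : D.OrdConnected) {T : NCat.{u} n}
    {f f' : freeFull hn adj hI ℓ D ⟶ T}
    (h : ∀ a (w : Fin (a + 1) →o E), (fullSig hn adj hI ℓ D w).comp f.hom =
      (fullSig hn adj hI ℓ D w).comp f'.hom) : f = f' := by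
  obtain ⟨R⟩ := nonempty_rest hR D hD T.obj
  let Rn : NCat.{u} n := ⟨R.R, R.isNCat n hn T.property⟩
  let lE := labelOf (labFun hn adj hI ℓ).hom
  have hlE : (free c E).obj.IsLabel lE := isLabel_labelOf _
  have key : ∀ g : freeFull hn adj hI ℓ D ⟶ T, ∀ a (w : Fin (a + 1) →o E)
      (o : (liftCat.{u} (oriental a)).carrier), (liftCat.{u} (oriental a)).s 0 o = o →
      R.lab ((((liftDown (oriental a)).comp (sig adj w)).comp
        (R.lift (free c E).obj lE hlE g.hom)).toFun o) = seqLab hI ℓ w o := fun g a w o ho => by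
    refine (R.lift_lab _ lE hlE g.hom _ ?_).trans ?_
    · show (free c E).obj.s 0 ((sig adj w).toFun o.down) = _
      rw [← (sig adj w).map_s]
      exact congrArg _ (congrArg ULift.down ho)
    · exact sig_label hn adj hI ℓ w o.down (congrArg ULift.down ho)
  have heq : (ObjectProperty.homMk (R.lift (free c E).obj lE hlE f.hom) : free c E ⟶ Rn) =
      ObjectProperty.homMk (R.lift (free c E).obj lE hlE f'.hom) := by
    refine free_hom_ext adj fun a w => ?_
    have e := R.hom_ext (isLabel_seqLab hI ℓ w) (key f a w) (key f' a w) fun x => ?_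
    · exact congrArg (fun F => (liftUp (oriental a)).comp F) e
    · have hx := x.2
      let p : ((oriental a).full fun o => ℓ (w (srcV hI o)) ∈ D).carrier := ⟨x.1.down, hx⟩
      refine (R.lift_fac _ lE hlE f.hom ((fullSig hn adj hI ℓ D w).toFun p) _).trans ?_
      refine Eq.trans ?_ (R.lift_fac _ lE hlE f'.hom ((fullSig hn adj hI ℓ D w).toFun p) _).symm
      exact congrArg (fun F => Fun.toFun F p) (h a w)
  refine ObjectProperty.hom_ext _ (Fun.ext fun x => ?_)
  have hm := R.mem_of (R.lift_lab (free c E).obj lE hlE f.hom) x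
  refine (R.lift_fac _ lE hlE f.hom x hm).symm.trans ?_
  refine Eq.trans ?_ (R.lift_fac _ lE hlE f'.hom x
    (R.mem_of (R.lift_lab (free c E).obj lE hlE f'.hom) x))
  congr 2
  exact congrArg (fun F : free c E ⟶ Rn => F.hom.toFun x.1) heq

include hR in
theorem isIso_partMap (ℓ : E →o L) (D : Set L) (hD : D.OrdConnected) :
    IsIso (partMap hn adj hI ℓ D) := by
  obtain ⟨R⟩ := nonempty_rest hR D hD (free c (Part ℓ D)).obj
  let Rn : NCat.{u} n := ⟨R.R, R.isNCat n hn (free c (Part ℓ D)).property⟩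
  choose φ hφ using fun (a : ℕ) (w : Fin (a + 1) →o E) => exists_part_simplex adj hI ℓ D hD w
  let φ' := fun (a : ℕ) (w : Fin (a + 1) →o E) =>
    (OmCat.fullMap (liftDown.{u} (oriental a)) (P := fun o => seqLab hI ℓ w o ∈ D)
      (Q := fun o => ℓ (w (srcV hI o)) ∈ D) fun _ _ h => h).comp (φ a w)
  let Φ := fun (a : ℕ) (w : Fin (a + 1) →o E) =>
    R.lift _ (seqLab hI ℓ w) (isLabel_seqLab hI ℓ w) (φ' a w)
  have hnat : ∀ a b (w : Fin (a + 1) →o E) (θ : Fin (b + 1) →o Fin (a + 1)),
      ((liftDown.{u} (oriental b)).comp ((orientalMap θ).comp (liftUp (oriental a)))).comp (Φ a w) =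
        Φ b (w.comp θ) := by
    intro a b w θ
    refine R.lift_uniq _ _ _ (φ' b (w.comp θ)) _ (fun o ho => ?_) fun x hx => ?_
    · refine (R.lift_lab _ (seqLab hI ℓ w) (isLabel_seqLab hI ℓ w) (φ' a w)
        ⟨(orientalMap θ).toFun o.down⟩ ?_).trans ?_
      · exact congrArg ULift.up (((orientalMap θ).map_s 0 o.down).symm.trans
          (congrArg _ (congrArg ULift.down ho)))
      · show ℓ (w (srcV hI ((orientalMap θ).toFun o.down))) = _
        rw [srcV_map]
        rfl
    · have key : ∀ p : (simplexADC b).Cell,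
          ℓ (w (srcV hI ((oriental a).s 0 ((orientalMap θ).toFun p)))) =
            ℓ (w (θ (srcV hI ((oriental b).s 0 p)))) ∧
          ℓ (w (srcV hI ((oriental a).t 0 ((orientalMap θ).toFun p)))) =
            ℓ (w (θ (srcV hI ((oriental b).t 0 p)))) := fun p => by
        rw [← (orientalMap θ).map_s, ← (orientalMap θ).map_t, srcV_map, srcV_map]
        exact ⟨rfl, rfl⟩
      let q : ((oriental a).full fun o => ℓ (w (srcV hI o)) ∈ D).carrier :=
        ⟨(orientalMap θ).toFun x.1.down, by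
          show ℓ (w (srcV hI ((oriental a).s 0 ((orientalMap θ).toFun x.1.down)))) ∈ D ∧
            ℓ (w (srcV hI ((oriental a).t 0 ((orientalMap θ).toFun x.1.down)))) ∈ D
          rw [(key _).1, (key _).2]
          exact x.2⟩
      refine (R.lift_fac _ (seqLab hI ℓ w) (isLabel_seqLab hI ℓ w) (φ' a w) ⟨⟨q.1⟩, q.2⟩ hx).trans ?_
      show (φ a w).toFun q = (φ b (w.comp θ)).toFun ⟨x.1.down, x.2⟩
      classical
      have hq : ∀ i, srcV hI q.1 ≤ i → i ≤ tgtV hI q.1 → ℓ (w i) ∈ D := fun i h1 h2 => by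
        have h := q.2
        change ℓ (w (srcV hI (ADC.Cell.face false 0 q.1))) ∈ D ∧
          ℓ (w (srcV hI (ADC.Cell.face true 0 q.1))) ∈ D at h
        rw [s_zero hI, t_zero hI, srcV_vert, srcV_vert] at h
        exact hD.out h.1 h.2 ⟨ℓ.mono (w.mono h1), ℓ.mono (w.mono h2)⟩
      let r : Fin (a + 1) →o Part ℓ D :=
        ⟨fun i => ⟨w (max (srcV hI q.1) (min (tgtV hI q.1) i)), hq _ (le_max_left _ _)
          (max_le (srcV_le_tgtV hI q.1) (min_le_left _ _))⟩,
          fun i j hij => w.mono (max_le_max le_rfl (min_le_min le_rfl hij))⟩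
      have hr : ∀ i, srcV hI q.1 ≤ i → i ≤ tgtV hI q.1 → (r i).1 = w i := fun i h1 h2 => by
        show w (max (srcV hI q.1) (min (tgtV hI q.1) i)) = w i
        rw [min_eq_right h2, max_eq_right h1]
      rw [hφ a w q r hr, hφ b (w.comp θ) ⟨x.1.down, x.2⟩ (r.comp θ) fun i h1 h2 => ?_]
      · exact congrArg (fun F => Fun.toFun F x.1.down) (sig_natural adj r θ)
      · refine hr (θ i) ?_ ?_
        · show srcV hI ((orientalMap θ).toFun x.1.down) ≤ θ i
          rw [srcV_map]; exact θ.mono h1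
        · show θ i ≤ tgtV hI ((orientalMap θ).toFun x.1.down)
          rw [tgtV_map]; exact θ.mono h2
  let G : free c E ⟶ Rn := freeLift adj (X := Rn) (nerveHom (Y := R.R)
    (fun a w => (liftUp (oriental a)).comp (Φ a w))
    fun a b w θ => congrArg (fun F => (liftUp (oriental b)).comp F) (hnat a b w θ))
  have hG : ∀ a (w : Fin (a + 1) →o E), (sig adj w).comp G.hom =
      (liftUp (oriental a)).comp (Φ a w) := fun a w => sig_freeLift adj (X := Rn) _ w
  have hlab : ∀ o, (free c E).obj.s 0 o = o →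
      R.lab (G.hom.toFun o) = labelOf (labFun hn adj hI ℓ).hom o := by
    intro o ho
    have h : (ObjectProperty.homMk (G.hom.comp (toThin R.lab R.isLabel)) : free c E ⟶ thin hn L) =
        labFun hn adj hI ℓ := by
      refine free_hom_ext adj fun a w => thin_hom_ext _ _ fun p hp => ?_
      refine Eq.trans ?_ (labelOf_sig hn adj hI ℓ w p hp).symm
      show labelOf (toThin R.lab R.isLabel) (((sig adj w).comp G.hom).toFun p) = _
      rw [hG, labelOf_toThin]
      · exact R.lift_lab _ (seqLab hI ℓ w) (isLabel_seqLab hI ℓ w) (φ' a w) ⟨p⟩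
          (congrArg ULift.up hp)
      · exact (((liftUp (oriental a)).comp (Φ a w)).map_s 0 p).symm.trans (congrArg _ hp)
    rw [← h]
    exact (labelOf_toThin R.lab R.isLabel _ (by rw [← G.hom.map_s, ho])).symm
  let inv' : freeFull hn adj hI ℓ D ⟶ free c (Part ℓ D) :=
    ObjectProperty.homMk ((OmCat.fullMap G.hom (Q := fun o => R.lab o ∈ D)
      fun o ho hP => show R.lab (G.hom.toFun o) ∈ D by rw [hlab o ho]; exact hP).comp R.e)
  have hinv : ∀ a (w : Fin (a + 1) →o E) (p : ((oriental a).full fun o =>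
      ℓ (w (srcV hI o)) ∈ D).carrier),
      inv'.hom.toFun ((fullSig hn adj hI ℓ D w).toFun p) = (φ a w).toFun p := fun a w p => by
    refine Eq.trans ?_ (R.lift_fac _ (seqLab hI ℓ w) (isLabel_seqLab hI ℓ w) (φ' a w) ⟨⟨p.1⟩, p.2⟩
      (R.mem_of (R.lift_lab _ _ _ _) _))
    exact congrArg R.e.toFun (Subtype.ext (congrArg (fun F => Fun.toFun F p.1) (hG a w)))
  refine ⟨inv', free_hom_ext adj fun a w => Fun.ext fun p => ?_,
    freeFull_hom_ext hn adj hI hR ℓ D hD fun a w => Fun.ext fun p => Subtype.ext ?_⟩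
  · have hp : ℓ ((partIncl ℓ D).comp w (srcV hI ((oriental a).s 0 p))) ∈ D ∧
        ℓ ((partIncl ℓ D).comp w (srcV hI ((oriental a).t 0 p))) ∈ D := ⟨(w _).2, (w _).2⟩
    show inv'.hom.toFun ((partMap hn adj hI ℓ D).hom.toFun ((sig adj w).toFun p)) =
      (sig adj w).toFun p
    have e : (partMap hn adj hI ℓ D).hom.toFun ((sig adj w).toFun p) =
        (fullSig hn adj hI ℓ D ((partIncl ℓ D).comp w)).toFun ⟨p, hp⟩ :=
      Subtype.ext ((partMap_toFun hn adj hI ℓ D _).trans
        (congrArg (fun F => Fun.toFun F p) (sig_freeMap adj (partIncl ℓ D) w)))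
    rw [e, hinv, hφ a ((partIncl ℓ D).comp w) ⟨p, hp⟩ w fun _ _ _ => rfl]
  · show ((partMap hn adj hI ℓ D).hom.toFun (inv'.hom.toFun
      ((fullSig hn adj hI ℓ D w).toFun p))).1 = ((fullSig hn adj hI ℓ D w).toFun p).1
    refine (partMap_toFun hn adj hI ℓ D _).trans ?_
    refine Eq.trans ?_ (fullMap_x (sig adj w) _ p).symm
    have hq : ∀ i, srcV hI p.1 ≤ i → i ≤ tgtV hI p.1 → ℓ (w i) ∈ D := fun i h1 h2 => by
      have h := p.2
      change ℓ (w (srcV hI (ADC.Cell.face false 0 p.1))) ∈ D ∧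
        ℓ (w (srcV hI (ADC.Cell.face true 0 p.1))) ∈ D at h
      rw [s_zero hI, t_zero hI, srcV_vert, srcV_vert] at h
      exact hD.out h.1 h.2 ⟨ℓ.mono (w.mono h1), ℓ.mono (w.mono h2)⟩
    let r : Fin (a + 1) →o Part ℓ D :=
      ⟨fun i => ⟨w (max (srcV hI p.1) (min (tgtV hI p.1) i)), hq _ (le_max_left _ _)
        (max_le (srcV_le_tgtV hI p.1) (min_le_left _ _))⟩,
        fun i j hij => w.mono (max_le_max le_rfl (min_le_min le_rfl hij))⟩
    have hr : ∀ i, srcV hI p.1 ≤ i → i ≤ tgtV hI p.1 → (r i).1 = w i := fun i h1 h2 => by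
      show w (max (srcV hI p.1) (min (tgtV hI p.1) i)) = w i
      rw [min_eq_right h2, max_eq_right h1]
    rw [hinv, hφ a w p r hr]
    refine (congrArg (fun F => Fun.toFun F p.1) (sig_freeMap adj (partIncl ℓ D) r)).trans ?_
    exact sig_congr adj hI _ _ _ hr

end

end Vale.Agent.P213.Cells
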