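import Vale.Agent.P213.Cells.Full

/-!
# P213: restriction to convex sets of labels preserves pushouts
-/

namespace Vale.Agent.P213.Cells

open CategoryTheory CategoryTheory.Limits Opposite Simplicial

universe u

noncomputable section

variable {n : ℕ∞} {hn : 1 ≤ n} {L : Type u} [PartialOrder L]

/-- The part of a labelled category with labels in `D`. -/
abbrev partOf {X : NCat.{u} n} (ℓ : X ⟶ thin hn L) (D : Set L) : NCat.{u} n :=
  fullN X fun o => labelOf ℓ.hom o ∈ D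

/-- The inclusion of a part. -/
abbrev partOfι {X : NCat.{u} n} (ℓ : X ⟶ thin hn L) (D : Set L) : partOf ℓ D ⟶ X :=
  ObjectProperty.homMk (X.obj.fullι fun o => labelOf ℓ.hom o ∈ D)

/-- A map over the labels, on parts. -/
def partHom {X Y : NCat.{u} n} (f : X ⟶ Y) (ℓ : X ⟶ thin hn L) (ℓ' : Y ⟶ thin hn L)
    (h : f ≫ ℓ' = ℓ) (D : Set L) : partOf ℓ D ⟶ partOf ℓ' D :=
  ObjectProperty.homMk (OmCat.fullMap f.hom (P := fun o => labelOf ℓ.hom o ∈ D)
    (Q := fun o => labelOf ℓ'.hom o ∈ D) fun o _ hP => by subst h; exact hP)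

theorem partHom_toFun {X Y : NCat.{u} n} (f : X ⟶ Y) (ℓ : X ⟶ thin hn L) (ℓ' : Y ⟶ thin hn L)
    (h : f ≫ ℓ' = ℓ) (D : Set L) (x : (partOf ℓ D).obj.carrier) :
    ((partHom f ℓ ℓ' h D).hom.toFun x).1 = f.hom.toFun x.1 := rfl

theorem partHom_ι {X Y : NCat.{u} n} (f : X ⟶ Y) (ℓ : X ⟶ thin hn L) (ℓ' : Y ⟶ thin hn L)
    (h : f ≫ ℓ' = ℓ) (D : Set L) :
    partHom f ℓ ℓ' h D ≫ partOfι ℓ' D = partOfι ℓ D ≫ f := rfl

/-- A part containing every label is everything. -/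
theorem isIso_partOfι {X : NCat.{u} n} (ℓ : X ⟶ thin hn L) (D : Set L)
    (h : ∀ o, X.obj.s 0 o = o → labelOf ℓ.hom o ∈ D) : IsIso (partOfι ℓ D) := by
  refine ⟨ObjectProperty.homMk (X.obj.toSub (Fun.id _) _
    (X.obj.full_closed fun o => labelOf ℓ.hom o ∈ D) fun x =>
      ⟨h _ ((X.obj.ss 0 0 x).trans rfl),
        h _ ((X.obj.st 0 0 x).trans (if_neg (lt_irrefl 0)))⟩), ?_, ?_⟩
  · exact ObjectProperty.hom_ext _ (Fun.ext fun x => rfl)
  · exact ObjectProperty.hom_ext _ (Fun.ext fun x => rfl)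

/-- The labelled right adjoint as an `n`-category. -/
abbrev restN (hn : 1 ≤ n) {D : Set L} {T : NCat.{u} n} (R : Rest D T.obj) : NCat.{u} n :=
  ⟨R.R, R.isNCat n hn T.property⟩

variable (hR : Spec.Restrict.{u, u})

include hR in
/-- Restriction to an order-connected set of labels preserves pushouts. -/
theorem isPushout_part {Z A B Y : NCat.{u} n} {f : Z ⟶ A} {g : Z ⟶ B} {i : A ⟶ Y} {j : B ⟶ Y}
    (sq : IsPushout f g i j) (ℓ : Y ⟶ thin hn L) (ℓZ : Z ⟶ thin hn L) (ℓA : A ⟶ thin hn L)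
    (ℓB : B ⟶ thin hn L) (hA : i ≫ ℓ = ℓA) (hB : j ≫ ℓ = ℓB) (hZA : f ≫ ℓA = ℓZ)
    (hZB : g ≫ ℓB = ℓZ) (D : Set L) (hD : D.OrdConnected) :
    IsPushout (partHom f ℓZ ℓA hZA D) (partHom g ℓZ ℓB hZB D) (partHom i ℓA ℓ hA D)
      (partHom j ℓB ℓ hB D) := by
  have w : partHom f ℓZ ℓA hZA D ≫ partHom i ℓA ℓ hA D =
      partHom g ℓZ ℓB hZB D ≫ partHom j ℓB ℓ hB D :=
    ObjectProperty.hom_ext _ (Fun.ext fun x => Subtype.ext
      (congrArg (fun F : Z ⟶ Y => F.hom.toFun x.1) sq.w))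
  refine ⟨⟨w⟩, ⟨PushoutCocone.isColimitAux' _ fun s => ?_⟩⟩
  let T := s.pt
  let R := (nonempty_rest hR D hD T.obj).some
  let φA := s.inl
  let φB := s.inr
  let ΦA : A ⟶ restN hn R := ObjectProperty.homMk
    (R.lift A.obj (labelOf ℓA.hom) (isLabel_labelOf _) φA.hom)
  let ΦB : B ⟶ restN hn R := ObjectProperty.homMk
    (R.lift B.obj (labelOf ℓB.hom) (isLabel_labelOf _) φB.hom)
  have hlA : ∀ o, A.obj.s 0 o = o → R.lab (ΦA.hom.toFun o) = labelOf ℓA.hom o :=
    R.lift_lab _ _ (isLabel_labelOf _) φA.hom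
  have hlB : ∀ o, B.obj.s 0 o = o → R.lab (ΦB.hom.toFun o) = labelOf ℓB.hom o :=
    R.lift_lab _ _ (isLabel_labelOf _) φB.hom
  have hfA : ∀ x (h), R.e.toFun ⟨ΦA.hom.toFun x.1, h⟩ = φA.hom.toFun x :=
    R.lift_fac _ _ (isLabel_labelOf _) φA.hom
  have hfB : ∀ x (h), R.e.toFun ⟨ΦB.hom.toFun x.1, h⟩ = φB.hom.toFun x :=
    R.lift_fac _ _ (isLabel_labelOf _) φB.hom
  have hZ : f ≫ ΦA = g ≫ ΦB := by
    have h1 : ∀ o, Z.obj.s 0 o = o → R.lab ((f.hom.comp ΦA.hom).toFun o) = labelOf ℓZ.hom o :=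
      fun o ho => by
        refine (hlA _ (by rw [← f.hom.map_s, ho])).trans ?_
        subst hZA; rfl
    have h2 : ∀ o, Z.obj.s 0 o = o → R.lab ((g.hom.comp ΦB.hom).toFun o) = labelOf ℓZ.hom o :=
      fun o ho => by
        refine (hlB _ (by rw [← g.hom.map_s, ho])).trans ?_
        subst hZB; rfl
    refine ObjectProperty.hom_ext _ (R.hom_ext (isLabel_labelOf ℓZ.hom) h1 h2 fun x => ?_)
    refine (hfA ((partHom f ℓZ ℓA hZA D).hom.toFun x) _).trans ?_
    refine Eq.trans ?_ (hfB ((partHom g ℓZ ℓB hZB D).hom.toFun x) _).symm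
    exact congrArg (fun F : partOf ℓZ D ⟶ T => F.hom.toFun x) s.condition
  let Φ : Y ⟶ restN hn R := sq.desc ΦA ΦB hZ
  have hi : i ≫ Φ = ΦA := sq.inl_desc _ _ _
  have hj : j ≫ Φ = ΦB := sq.inr_desc _ _ _
  have hlab : ∀ o, Y.obj.s 0 o = o → R.lab (Φ.hom.toFun o) = labelOf ℓ.hom o := by
    intro o ho
    let ρ : restN hn R ⟶ thin hn L := ObjectProperty.homMk (toThin R.lab R.isLabel)
    have e : Φ ≫ ρ = ℓ := by
      refine sq.hom_ext ?_ ?_
      · rw [← Category.assoc, hi, hA]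
        refine ObjectProperty.hom_ext _ (thin_hom_ext _ _ fun a ha => ?_)
        refine (labelOf_toThin R.lab R.isLabel (ΦA.hom.toFun a)
          (by rw [← ΦA.hom.map_s, ha])).trans ?_
        exact hlA a ha
      · rw [← Category.assoc, hj, hB]
        refine ObjectProperty.hom_ext _ (thin_hom_ext _ _ fun a ha => ?_)
        refine (labelOf_toThin R.lab R.isLabel (ΦB.hom.toFun a)
          (by rw [← ΦB.hom.map_s, ha])).trans ?_
        exact hlB a ha
    rw [← e]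
    exact (labelOf_toThin R.lab R.isLabel _ (by rw [← Φ.hom.map_s, ho])).symm
  let d : partOf ℓ D ⟶ T := ObjectProperty.homMk
    ((OmCat.fullMap Φ.hom (P := fun o => labelOf ℓ.hom o ∈ D) (Q := fun o => R.lab o ∈ D)
      fun o ho hP => show R.lab (Φ.hom.toFun o) ∈ D by rw [hlab o ho]; exact hP).comp R.e)
  refine ⟨d, ObjectProperty.hom_ext _ (Fun.ext fun x => ?_),
    ObjectProperty.hom_ext _ (Fun.ext fun x => ?_), fun {m} hmA hmB => ?_⟩
  · refine Eq.trans ?_ (hfA x (R.mem_of hlA x))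
    exact congrArg R.e.toFun (Subtype.ext (congrArg (fun F : A ⟶ restN hn R => F.hom.toFun x.1) hi))
  · refine Eq.trans ?_ (hfB x (R.mem_of hlB x))
    exact congrArg R.e.toFun (Subtype.ext (congrArg (fun F : B ⟶ restN hn R => F.hom.toFun x.1) hj))
  · let Φm : Y ⟶ restN hn R :=
      ObjectProperty.homMk (R.lift Y.obj (labelOf ℓ.hom) (isLabel_labelOf _) m.hom)
    have hlm : ∀ o, Y.obj.s 0 o = o → R.lab (Φm.hom.toFun o) = labelOf ℓ.hom o :=
      R.lift_lab _ _ (isLabel_labelOf _) m.hom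
    have hfm : ∀ x (h), R.e.toFun ⟨Φm.hom.toFun x.1, h⟩ = m.hom.toFun x :=
      R.lift_fac _ _ (isLabel_labelOf _) m.hom
    have e : Φm = Φ := by
      refine sq.hom_ext ?_ ?_
      · rw [hi]
        have h1 : ∀ o, A.obj.s 0 o = o → R.lab ((i.hom.comp Φm.hom).toFun o) = labelOf ℓA.hom o :=
          fun o ho => by
            refine (hlm _ (by rw [← i.hom.map_s, ho])).trans ?_
            subst hA; rfl
        refine ObjectProperty.hom_ext _ (R.hom_ext (isLabel_labelOf ℓA.hom) h1 hlA fun x => ?_)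
        refine (hfm ((partHom i ℓA ℓ hA D).hom.toFun x) _).trans ?_
        refine Eq.trans ?_ (hfA x _).symm
        exact congrArg (fun F : partOf ℓA D ⟶ T => F.hom.toFun x) hmA
      · rw [hj]
        have h1 : ∀ o, B.obj.s 0 o = o → R.lab ((j.hom.comp Φm.hom).toFun o) = labelOf ℓB.hom o :=
          fun o ho => by
            refine (hlm _ (by rw [← j.hom.map_s, ho])).trans ?_
            subst hB; rfl
        refine ObjectProperty.hom_ext _ (R.hom_ext (isLabel_labelOf ℓB.hom) h1 hlB fun x => ?_)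
        refine (hfm ((partHom j ℓB ℓ hB D).hom.toFun x) _).trans ?_
        refine Eq.trans ?_ (hfB x _).symm
        exact congrArg (fun F : partOf ℓB D ⟶ T => F.hom.toFun x) hmB
    refine ObjectProperty.hom_ext _ (Fun.ext fun x => ?_)
    refine (hfm x (R.mem_of hlm x)).symm.trans ?_
    exact congrArg R.e.toFun (Subtype.ext (congrArg (fun F : Y ⟶ restN hn R => F.hom.toFun x.1) e))

end

end Vale.Agent.P213.Cells
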