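import Vale.Agent.P213.Cells.Attach
import Vale.Agent.P213.Cells.Flags

/-!
# P213: the generating families, as required by the transfer
-/

namespace Vale.Agent.P213.Cells

open CategoryTheory CategoryTheory.Limits Opposite Simplicial

universe u

noncomputable section

variable {m : ℕ}

/-- Flags and the flags inside a lower set of faces. -/
def flagAttach (G : Spec.Face.{u} m → Prop) : Attach (Spec.Flag.{u} m) where
  A := fun c => ∀ s ∈ c.finset, G s
  M := fun c => ∃ s ∈ c.finset, G s
  lower := fun _ _ h hb s hs => hb s (h hs)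
  upper := fun _ _ h ⟨s, hs, hG⟩ => ⟨s, h hs, hG⟩
  le := fun a h => a.nonempty.imp fun s hs => ⟨hs, h s hs⟩
  retr := fun v hv _ => by
    classical
    refine ⟨(HornFlags.keep G v hv).1, (HornFlags.keep G v hv).2, Finset.filter_subset _ _, ?_⟩
    exact fun p hp hle s hs => Finset.mem_filter.2 ⟨hle hs, hp s hs⟩

instance (m : ℕ) : Finite (Spec.Face.{u} m) :=
  Finite.of_injective (fun s => s.finset) fun _ _ h => PartialOrder.NonemptyFiniteChains.ext h

instance (m : ℕ) : Finite (Spec.Flag.{u} m) :=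
  Finite.of_injective (fun s => s.finset) fun _ _ h => PartialOrder.NonemptyFiniteChains.ext h

variable {n : ℕ∞} (H : Inputs.{u} n) {c : SSet.{u} ⥤ NCat.{u} n} (adj : c ⊣ nerveN n)

include H in
/-- The flags meeting both sides include by a weak equivalence. -/
theorem weq_flag_middle (G : Spec.Face.{u} m → Prop) (hG : ¬G (HornFlags.top m))
    (hP' : Spec.weq (terminal.from (nerve (Spec.FlagIn m G)))) :
    Spec.weq (nerveMap (partInclLe (flagAttach G).lab
      (Set.inter_subset_right : spanL ∩ spanR ⊆ spanR.{u})).monotone.functor) := by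
  classical
  let T := flagAttach G
  let a : Part T.lab (spanL ∩ spanR) → HornFlags.V G := fun x => ⟨x.1, (T.mem_spanL _).1 x.2.1, by
    have h : ¬∀ s ∈ x.1.finset, G s := (T.mem_spanR _).1 x.2.2
    push Not at h
    exact h⟩
  let a' : HornFlags.V G → Part T.lab (spanL ∩ spanR) := fun x =>
    ⟨x.1, (T.mem_spanL _).2 x.2.1, (T.mem_spanR _).2 fun h => x.2.2.elim fun s hs => hs.2 (h s hs.1)⟩
  let b : HornFlags.U G → Part T.lab spanR := fun x =>
    ⟨x.1, (T.mem_spanR _).2 fun h => x.2.elim fun s hs => hs.2 (h s hs.1)⟩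
  let b' : Part T.lab spanR → HornFlags.U G := fun x => ⟨x.1, by
    have h : ¬∀ s ∈ x.1.finset, G s := (T.mem_spanR _).1 x.2
    push Not at h
    exact h⟩
  have ha : Monotone a := fun _ _ h => h
  have ha' : Monotone a' := fun _ _ h => h
  have hb : Monotone b := fun _ _ h => h
  have hb' : Monotone b' := fun _ _ h => h
  have i1 : IsIso (nerveMap ha.functor) := ⟨nerveMap ha'.functor,
    by ext k s i; rfl, by ext k s i; rfl⟩
  have i2 : IsIso (nerveMap hb.functor) := ⟨nerveMap hb'.functor,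
    by ext k s i; rfl, by ext k s i; rfl⟩
  have e : nerveMap (partInclLe T.lab
      (Set.inter_subset_right : spanL ∩ spanR ⊆ spanR.{u})).monotone.functor =
      nerveMap ha.functor ≫ HornFlags.incl G ≫ nerveMap hb.functor := by
    ext k s i
    rfl
  rw [e]
  exact H.weq_comp (H.weq_iso _)
    (H.weq_comp (HornFlags.weq_incl G H.hB H.hH H.hN hG hP') (H.weq_iso _))

theorem mono_flagIncl (G : Spec.Face.{u} m → Prop) : Mono (Spec.flagIncl.{u} m G) :=
  mono_nerveMap (⟨fun c => c.1, fun _ _ h => h⟩ : Spec.FlagIn m G →o Spec.Flag.{u} m)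
    fun _ _ h => Subtype.ext h

include H adj in
/-- The generating families satisfy what the transfer needs. -/
theorem cells_of (hSb : Spec.SdBoundary.{u}) (hSh : Spec.SdHorn.{u}) :
    (∀ m : ℕ, let ι := SSet.sd.map (SSet.sd.map (SSet.boundary.{u} m).ι)
      Mono ι ∧ Spec.weq (adj.unit.app (SSet.sd.obj (SSet.sd.obj (SSet.boundary.{u} m).toSSet))) ∧
      Spec.weq (adj.unit.app (SSet.sd.obj (SSet.sd.obj (Δ[m] : SSet.{u})))) ∧
      Mono ((nerveN n).map (c.map ι)) ∧
      ∀ (X Y : NCat.{u} n) (g : _ ⟶ X) (j : _ ⟶ Y) (i : X ⟶ Y), IsPushout (c.map ι) g j i →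
        Mono ((nerveN n).map i) ∧
        ∀ (Q : SSet.{u}) (l : _ ⟶ Q) (r : _ ⟶ Q) (q : Q ⟶ (nerveN n).obj Y),
          IsPushout ((nerveN n).map (c.map ι)) ((nerveN n).map g) l r →
          l ≫ q = (nerveN n).map j → r ≫ q = (nerveN n).map i → Spec.weq q) ∧
    ∀ (m : ℕ) (k : Fin (m + 2)) (X Y : NCat.{u} n) (g : _ ⟶ X) (j : _ ⟶ Y) (i : X ⟶ Y),
      IsPushout (c.map (SSet.sd.map (SSet.sd.map (SSet.horn.{u} (m + 1) k).ι))) g j i →
      Mono ((nerveN n).map i) ∧ Spec.weq ((nerveN n).map i) := by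
  refine ⟨fun m => ?_, fun m k X Y g j i sq => ?_⟩
  · intro ι
    obtain ⟨e⟩ := hSb m
    let T := flagAttach.{u} (m := m) fun s => ∃ j, j ∉ s.finset
    let eL : SSet.sd.obj (SSet.sd.obj (SSet.boundary.{u} m).toSSet) ≅ nerve {p // T.A p} :=
      Arrow.leftFunc.mapIso e
    let eR : SSet.sd.obj (SSet.sd.obj (Δ[m] : SSet.{u})) ≅ nerve (Spec.Flag.{u} m) :=
      Arrow.rightFunc.mapIso e
    have he : eL.hom ≫ nerveMap T.incl.monotone.functor = ι ≫ eR.hom := e.hom.w
    have hι : ι = eL.hom ≫ nerveMap T.incl.monotone.functor ≫ eR.inv := by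
      rw [reassoc_of% he, Iso.hom_inv_id, Category.comp_id]
    have := mono_flagIncl (m := m) fun s => ∃ j, j ∉ s.finset
    have hmι : Mono ι := by
      have : Mono (nerveMap T.incl.monotone.functor) := this
      rw [hι]
      infer_instance
    have hu : ∀ {K K' : SSet.{u}} (φ : K ≅ K'), Spec.weq (adj.unit.app K') →
        Spec.weq (adj.unit.app K) := fun φ h => by
      refine H.weq_right (g := (nerveN n).map (c.map φ.hom)) (H.weq_iso _) ?_
      have e' : φ.hom ≫ adj.unit.app _ = adj.unit.app _ ≫ (nerveN n).map (c.map φ.hom) :=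
        adj.unit.naturality φ.hom
      rw [← e']
      exact H.weq_comp (H.weq_iso _) h
    have hN : (nerveN n).map (c.map ι) = (nerveN n).map (c.map eL.hom) ≫
        (nerveN n).map (freeMap c T.incl) ≫ (nerveN n).map (c.map eR.inv) := by
      rw [← Functor.map_comp, ← Functor.map_comp, ← Functor.map_comp, ← Functor.map_comp, ← hι]
    refine ⟨hmι, hu eL (weq_unit_finite H adj _), hu eR (weq_unit_finite H adj _), ?_,
      fun X Y g j i sq => ?_⟩
    · have hm := T.mono_map_inr H adj (g := 𝟙 _) (j := 𝟙 _) (i := freeMap c T.incl)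
        (IsPushout.of_vert_isIso ⟨by simp⟩)
      rw [hN]
      infer_instance
    · have sq' : IsPushout (freeMap c T.incl) (c.map eL.inv ≫ g) (c.map eR.inv ≫ j) i := by
        refine IsPushout.of_iso sq (c.mapIso eL) (c.mapIso eR) (Iso.refl _) (Iso.refl _) ?_ ?_ ?_ ?_
        · exact (c.map_comp _ _).symm.trans ((congrArg c.map he.symm).trans (c.map_comp _ _))
        · simp [← Functor.map_comp_assoc]
        · simp [← Functor.map_comp_assoc]
        · simp
      refine ⟨T.mono_map_inr H adj sq', fun Q l r q hQ hl hr => ?_⟩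
      refine T.weq_comparison H adj sq' Q ((nerveN n).map (c.map eR.inv) ≫ l) r q ?_ ?_ hr
      · refine IsPushout.of_iso hQ ((nerveN n).mapIso (c.mapIso eL)) ((nerveN n).mapIso (c.mapIso eR))
          (Iso.refl _) (Iso.refl _) ?_ ?_ ?_ ?_
        · exact ((nerveN n).map_comp _ _).symm.trans ((congrArg (nerveN n).map
            ((c.map_comp _ _).symm.trans ((congrArg c.map he.symm).trans (c.map_comp _ _)))).trans
              ((nerveN n).map_comp _ _))
        · simp [← Functor.map_comp]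
        · simp [← Functor.map_comp_assoc]
        · simp
      · rw [Category.assoc, hl, ← Functor.map_comp]
  · obtain ⟨⟨e⟩, hterm⟩ := hSh m k
    let G : Spec.Face.{u} (m + 1) → Prop := fun s => ∃ j, j ≠ ULift.up k ∧ j ∉ s.finset
    let T := flagAttach.{u} G
    let eL : SSet.sd.obj (SSet.sd.obj (SSet.horn.{u} (m + 1) k).toSSet) ≅ nerve {p // T.A p} :=
      Arrow.leftFunc.mapIso e
    let eR : SSet.sd.obj (SSet.sd.obj (Δ[m + 1] : SSet.{u})) ≅ nerve (Spec.Flag.{u} (m + 1)) :=
      Arrow.rightFunc.mapIso e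
    have he : eL.hom ≫ nerveMap T.incl.monotone.functor =
        SSet.sd.map (SSet.sd.map (SSet.horn.{u} (m + 1) k).ι) ≫ eR.hom := e.hom.w
    have sq' : IsPushout (freeMap c T.incl) (c.map eL.inv ≫ g) (c.map eR.inv ≫ j) i := by
      refine IsPushout.of_iso sq (c.mapIso eL) (c.mapIso eR) (Iso.refl _) (Iso.refl _) ?_ ?_ ?_ ?_
      · exact (c.map_comp _ _).symm.trans ((congrArg c.map he.symm).trans (c.map_comp _ _))
      · simp [← Functor.map_comp_assoc]
      · simp [← Functor.map_comp_assoc]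
      · simp
    refine ⟨T.mono_map_inr H adj sq',
      T.weq_map_inr H adj sq' (weq_flag_middle H G (fun ⟨j, _, hj⟩ => hj (Finset.mem_univ j)) ?_)⟩
    have h2 : Spec.weq (eL.inv ≫ terminal.from _) := H.weq_comp (H.weq_iso _) hterm
    rwa [terminal.comp_from] at h2

end

/-- The cells interface from the other modules. -/
theorem cells {n : ℕ∞} (hn : 1 ≤ n) (hI : Spec.Interval) (hR : Spec.Restrict.{u, u})
    (hC : Spec.Cylinder.{u} n) (hB : Spec.WeqBasic.{u}) (hH : Spec.WeqHomotopyEquiv.{u})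
    (hN : Spec.NerveHomotopy.{u}) (hP : Spec.WeqPushout.{u}) (hG : Spec.WeqGluing.{u})
    (hSb : Spec.SdBoundary.{u}) (hSh : Spec.SdHorn.{u}) : Spec.Cells.{u} n := fun _ adj =>
  cells_of ⟨hn, hI, hR, (nonempty_cyl hC).some, hB, hH, hN, hP, hG⟩ adj hSb hSh

end Vale.Agent.P213.Cells
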