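import Vale.Agent.P213.Cells.Unit

/-!
# P213: attaching a cosieve with retraction is a weak equivalence on nerves

If every element of the up-closed part `V` of a finite poset `W` has a greatest element of the
complement below it, pushing out along the inclusion of the complement induces a monic weak
equivalence of nerves, for every target category.
-/

namespace Vale.Agent.P213.Cells

open CategoryTheory CategoryTheory.Limits Opposite Simplicial

universe u

noncomputable section

variable {n : ℕ∞} (H : Inputs.{u} n) {c : SSet.{u} ⥤ NCat.{u} n} (adj : c ⊣ nerveN n)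
  {W P : Type u} [PartialOrder W] [PartialOrder P]

include H adj in
/-- The case of a greatest new element: two sweeps. -/
theorem key_max (e : P →o W) (R : W →o P) (V : W → Prop) (hV : Monotone V) (t : W)
    (hRe : ∀ p, R (e p) = p) (heV : ∀ p, ¬V (e p)) (hR : ∀ w, ¬V w → e (R w) = w)
    (hRV : ∀ w, V w → R w = R t) (hmax : ∀ v, V v → v ≤ t) (hRt : e (R t) ≤ t)
    {X X' : NCat.{u} n} {g : free c P ⟶ X} {j : free c W ⟶ X'} {i : X ⟶ X'}
    (sq : IsPushout (freeMap c e) g j i) :
    Mono ((nerveN n).map i) ∧ Spec.weq ((nerveN n).map i) := by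
  classical
  let G : W →o W := ⟨fun w => if V w then t else w, fun a b h => by
    show (if V a then t else a) ≤ if V b then t else b
    split_ifs with h1 h2 h2
    · exact le_rfl
    · exact absurd (hV h h1) h2
    · exact h.trans (hmax b h2)
    · exact h⟩
  let S₁ : Sweep W :=
    { F := OrderHom.id
      G := G
      V := V
      t := t
      upper := hV
      le := fun x y h hy => h.trans (hmax y hy)
      pos := fun x h => if_pos h
      neg := fun x h => if_neg h }
  let S₂ : Sweep W :=
    { F := e.comp R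
      G := G
      V := V
      t := t
      upper := hV
      le := fun x y h hy => by
        show e (R x) ≤ t
        by_cases hx : V x
        · rw [hRV x hx]; exact hRt
        · rw [hR x hx]; exact h.trans (hmax y hy)
      pos := fun x h => if_pos h
      neg := fun x h => (if_neg h).trans (hR x h).symm }
  let gW : nerve W ⟶ (nerveN n).obj X' := adj.unit.app (nerve W) ≫ (nerveN n).map j
  have hcompat : ∀ S : Sweep W, S.V = V → (∀ p, S.F (e p) = e p) →
      freeMap c e ≫ freeLift adj (S.hom H.C gW) = g ≫ i ≫ H.C.cst.app X' := by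
    intro S hSV hSF
    refine free_hom_ext adj fun a w => ?_
    show ((sig adj w).comp (freeMap c e).hom).comp (freeLift adj (S.hom H.C gW)).hom = _
    rw [sig_freeMap, sig_freeLift, S.simp'_hom_zero H.C gW _ fun k => by rw [hSV]; exact heV _]
    have e1 : simp' (Y := X'.obj) gW (S.F.comp (e.comp w)) = (sig adj (e.comp w)).comp j.hom := by
      rw [show S.F.comp (e.comp w) = e.comp w from OrderHom.ext _ _ (funext fun k => hSF _)]
      rfl
    rw [e1, ← sig_freeMap]
    exact congrArg (fun F : free c P ⟶ X' => ((sig adj w).comp F.hom).comp (H.C.cst.app X').hom)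
      sq.w
  have hc₁ := hcompat S₁ rfl fun _ => rfl
  have hc₂ := hcompat S₂ rfl fun p => congrArg e (hRe p)
  let K₁ : X' ⟶ H.C.Γ.obj X' := sq.desc _ _ hc₁
  let K₂ : X' ⟶ H.C.Γ.obj X' := sq.desc _ _ hc₂
  have hc₀ : freeMap c e ≫ (freeMap c R ≫ g) = g ≫ 𝟙 X := by
    rw [← Category.assoc, ← freeMap_comp,
      show R.comp e = OrderHom.id from OrderHom.ext _ _ (funext hRe), freeMap_id, Category.id_comp,
      Category.comp_id]
  let ret : X' ⟶ X := sq.desc (freeMap c R ≫ g) (𝟙 X) hc₀
  have hir : i ≫ ret = 𝟙 X := sq.inr_desc _ _ _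
  have hi₀ : i ≫ H.C.cst.app X' ≫ H.C.e₀.app X' = i := by
    rw [← NatTrans.comp_app, H.C.cst₀]
    exact Category.comp_id i
  have hi₁ : i ≫ H.C.cst.app X' ≫ H.C.e₁.app X' = i := by
    rw [← NatTrans.comp_app, H.C.cst₁]
    exact Category.comp_id i
  have hW₀ : ∀ S : Sweep W, freeLift adj (S.hom H.C gW) ≫ H.C.e₀.app X' = freeMap c S.F ≫ j :=
    fun S => free_hom_ext_unit adj (by
      rw [Functor.map_comp, Functor.map_comp, ← Category.assoc, unit_freeLift, S.hom_e₀,
        ← Category.assoc, ← Category.assoc, unit_freeMap])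
  have hW₁ : ∀ S : Sweep W, freeLift adj (S.hom H.C gW) ≫ H.C.e₁.app X' = freeMap c S.G ≫ j :=
    fun S => free_hom_ext_unit adj (by
      rw [Functor.map_comp, Functor.map_comp, ← Category.assoc, unit_freeLift, S.hom_e₁,
        ← Category.assoc, ← Category.assoc, unit_freeMap])
  have h10 : K₁ ≫ H.C.e₀.app X' = 𝟙 X' := by
    refine sq.hom_ext ?_ ?_
    · rw [sq.inl_desc_assoc, hW₀, Category.comp_id]
      show freeMap c OrderHom.id ≫ j = j
      rw [freeMap_id, Category.id_comp]
    · rw [sq.inr_desc_assoc, Category.assoc, hi₀, Category.comp_id]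
  have h20 : K₂ ≫ H.C.e₀.app X' = ret ≫ i := by
    refine sq.hom_ext ?_ ?_
    · rw [sq.inl_desc_assoc, hW₀, sq.inl_desc_assoc, Category.assoc, ← sq.w, ← Category.assoc,
        ← freeMap_comp]
    · rw [sq.inr_desc_assoc, Category.assoc, hi₀, sq.inr_desc_assoc, Category.id_comp]
  have h11 : K₁ ≫ H.C.e₁.app X' = K₂ ≫ H.C.e₁.app X' := by
    refine sq.hom_ext ?_ ?_
    · rw [sq.inl_desc_assoc, hW₁, sq.inl_desc_assoc, hW₁]
    · rw [sq.inr_desc_assoc, sq.inr_desc_assoc]
  have h := H.htpic_ends K₁
  have h' := H.htpic_ends K₂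
  rw [h10, h11, CategoryTheory.Functor.map_id] at h
  rw [h20, Functor.map_comp] at h'
  have hm : (nerveN n).map i ≫ (nerveN n).map ret = 𝟙 _ := by
    rw [← Functor.map_comp, hir, CategoryTheory.Functor.map_id]
  refine ⟨mono_of_mono_fac hm, H.hH _ _ _ ((nerveN n).map ret) ?_ ?_⟩
  · rw [hm]; exact Relation.EqvGen.refl _
  · exact (h.trans _ _ _ (h'.symm _ _)).symm _ _

/-! ### The general case, by induction on the lower sets of new elements -/

/-- Labels for one attachment: the new elements, above a point for the old part. -/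
abbrev KeyLab (V : W → Prop) : Type u := WithBot {w // V w}

open Classical in
/-- The labelling of the poset. -/
def keyLab (V : W → Prop) (hV : Monotone V) : W →o KeyLab V where
  toFun w := if h : V w then ((⟨w, h⟩ : {w // V w}) : KeyLab V) else ⊥
  monotone' a b h := by
    dsimp only
    split_ifs with h1 h2
    · exact WithBot.coe_le_coe.2 h
    · exact absurd (hV h h1) h2
    · exact bot_le
    · exact le_rfl

theorem keyLab_neg {V : W → Prop} (hV : Monotone V) {w : W} (h : ¬V w) : keyLab V hV w = ⊥ :=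
  dif_neg h

theorem keyLab_pos {V : W → Prop} (hV : Monotone V) {w : W} (h : V w) :
    keyLab V hV w = ((⟨w, h⟩ : {w // V w}) : KeyLab V) := dif_pos h

/-- The labels of a lower set of new elements. -/
def keySet {V : W → Prop} (T : Set {w // V w}) : Set (KeyLab V) :=
  {l | ∀ v : {w // V w}, l = (v : KeyLab V) → v ∈ T}

omit [PartialOrder W] in
theorem bot_mem_keySet {V : W → Prop} (T : Set {w // V w}) : ⊥ ∈ keySet T :=
  fun _ h => absurd h WithBot.bot_ne_coe

omit [PartialOrder W] in
theorem coe_mem_keySet {V : W → Prop} (T : Set {w // V w}) (v : {w // V w}) :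
    (v : KeyLab V) ∈ keySet T ↔ v ∈ T :=
  ⟨fun h => h v rfl, fun h _ e => WithBot.coe_injective e ▸ h⟩

theorem isLowerSet_keySet {V : W → Prop} {T : Set {w // V w}} (hT : IsLowerSet T) :
    IsLowerSet (keySet T) := by
  intro l l' h hl v e
  subst e
  obtain ⟨u, rfl, hu⟩ := WithBot.coe_le_iff.1 h
  exact hT hu (hl u rfl)

variable [Finite W]

include H adj in
/-- Attaching a cosieve with a retraction is a monic weak equivalence on nerves. -/
theorem key (V : W → Prop) (hV : Monotone V)
    (hr : ∀ v, V v → ∃ a, ¬V a ∧ a ≤ v ∧ ∀ p, ¬V p → p ≤ v → p ≤ a)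
    {X Y : NCat.{u} n} {g : free c {w // ¬V w} ⟶ X} {j : free c W ⟶ Y} {i : X ⟶ Y}
    (sq : IsPushout (freeMap c ⟨fun w : {w // ¬V w} => w.1, fun _ _ h => h⟩) g j i) :
    Mono ((nerveN n).map i) ∧ Spec.weq ((nerveN n).map i) := by
  classical
  let e : {w // ¬V w} →o W := ⟨fun w => w.1, fun _ _ h => h⟩
  let botX : X ⟶ thin H.hn (KeyLab V) :=
    ObjectProperty.homMk (toThin (fun _ => ⊥) fun _ => le_rfl)
  let lW := labFun H.hn adj H.hI (keyLab V hV)
  have hbot : freeMap c e ≫ lW = g ≫ botX := by
    rw [labFun_natural]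
    refine free_hom_ext adj fun a w => thin_hom_ext _ _ fun o ho => ?_
    refine (labelOf_sig H.hn adj H.hI _ w o ho).trans ((keyLab_neg hV (w _).2).trans ?_)
    exact (labelOf_toThin (fun _ => (⊥ : KeyLab V)) (fun _ => le_rfl)
      (((sig adj w).comp g.hom).toFun o)
      ((((sig adj w).comp g.hom).map_s 0 o).symm.trans (congrArg _ ho))).symm
  let lY : Y ⟶ thin H.hn (KeyLab V) := sq.desc lW botX hbot
  have hlA : j ≫ lY = lW := sq.inl_desc _ _ _
  have hlB : i ≫ lY = botX := sq.inr_desc _ _ _
  have hiX : ∀ (T : Set {w // V w}) (x : X.obj.carrier), X.obj.s 0 x = x →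
      labelOf lY.hom (i.hom.toFun x) ∈ keySet T := fun T x _ => by
    have h : labelOf lY.hom (i.hom.toFun x) = labelOf botX.hom x :=
      congrArg (fun F : X ⟶ thin H.hn (KeyLab V) => labelOf F.hom x) hlB
    rw [h]
    exact bot_mem_keySet T
  let incX : ∀ T : Set {w // V w}, X ⟶ partOf lY (keySet T) := fun T =>
    ObjectProperty.homMk (Y.obj.toSub i.hom _
      (Y.obj.full_closed fun o => labelOf lY.hom o ∈ keySet T) fun x => by
        rw [← i.hom.map_s, ← i.hom.map_t]
        exact ⟨hiX T _ ((X.obj.ss 0 0 x).trans rfl),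
          hiX T _ ((X.obj.st 0 0 x).trans (if_neg (lt_irrefl 0)))⟩)
  have hsqT : ∀ T : Set {w // V w}, IsLowerSet T →
      ∃ (g' : free c {w // ¬V w} ⟶ X) (j' : free c (Part (keyLab V hV) (keySet T)) ⟶ _),
        IsPushout (freeMap c (⟨fun w => ⟨w.1, by rw [keyLab_neg hV w.2]; exact bot_mem_keySet T⟩,
          fun _ _ h => h⟩ : {w // ¬V w} →o Part (keyLab V hV) (keySet T))) g' j' (incX T) := by
    intro T hT
    have hD := IsLowerSet.ordConnected (isLowerSet_keySet hT)
    have hpm := isIso_partMap H.hn adj H.hI H.hR (keyLab V hV) (keySet T) hD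
    have hZ : IsIso (partOfι (g ≫ botX) (keySet T)) :=
      isIso_partOfι _ _ fun _ _ => bot_mem_keySet T
    have hX' : IsIso (partOfι botX (keySet T)) := isIso_partOfι _ _ fun _ _ => bot_mem_keySet T
    refine ⟨g, partMap H.hn adj H.hI (keyLab V hV) (keySet T) ≫ partHom j lW lY hlA _, ?_⟩
    refine IsPushout.of_iso (isPushout_part H.hR sq lY (g ≫ botX) lW botX hlA hlB hbot rfl
      (keySet T) hD) (asIso (partOfι (g ≫ botX) (keySet T)))
      (asIso (partMap H.hn adj H.hI (keyLab V hV) (keySet T))).symm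
      (asIso (partOfι botX (keySet T))) (Iso.refl _) ?_ rfl ?_ ?_
    · rw [Iso.symm_hom, asIso_hom, asIso_inv, IsIso.comp_inv_eq]
      refine ObjectProperty.hom_ext _ (Fun.ext fun x => Subtype.ext ?_)
      refine Eq.trans ?_ (partMap_toFun H.hn adj H.hI (keyLab V hV) (keySet T) _).symm
      exact congrArg (fun F : free c {w // ¬V w} ⟶ free c W => F.hom.toFun x.1)
        (freeMap_comp (⟨fun w => ⟨w.1, by rw [keyLab_neg hV w.2]; exact bot_mem_keySet T⟩,
          fun _ _ h => h⟩ : {w // ¬V w} →o Part (keyLab V hV) (keySet T))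
          (partIncl (keyLab V hV) (keySet T)))
    · simp
    · exact ObjectProperty.hom_ext _ (Fun.ext fun x => Subtype.ext rfl)
  have hempty : IsIso (incX ∅) := by
    obtain ⟨g', j', h⟩ := hsqT ∅ (isLowerSet_empty)
    have hno : ∀ w : Part (keyLab V hV) (keySet (∅ : Set {w // V w})), ¬V w.1 := fun w hw => by
      have h := w.2
      rw [keyLab_pos hV hw, coe_mem_keySet] at h
      exact h
    have := isIso_freeMap (c := c)
      (⟨fun w => ⟨w.1, by rw [keyLab_neg hV w.2]; exact bot_mem_keySet ∅⟩, fun _ _ h => h⟩ :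
        {w // ¬V w} →o Part (keyLab V hV) (keySet (∅ : Set {w // V w})))
      ⟨fun w => ⟨w.1, hno w⟩, fun _ _ h => h⟩ (fun _ => rfl) (fun _ => rfl)
    exact IsPushout.isIso_inr_of_isIso h
  have hQ : ∀ k, ∀ T : Set {w // V w}, T.ncard ≤ k → IsLowerSet T →
      Spec.weq ((nerveN n).map (incX T)) := by
    intro k
    induction k with
    | zero =>
      intro T hk _
      obtain rfl : T = ∅ := (Set.ncard_eq_zero (Set.toFinite T)).1 (Nat.le_zero.1 hk)
      exact H.weq_iso _
    | succ k ih =>
      intro T hk hT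
      rcases T.eq_empty_or_nonempty with rfl | hne
      · exact H.weq_iso _
      obtain ⟨t, htT, ht⟩ := (Set.toFinite T).exists_maximal hne
      by_cases htop : ∀ v ∈ T, v.1 ≤ t.1
      · obtain ⟨g', j', h⟩ := hsqT T hT
        obtain ⟨a, haV, hat, ha⟩ := hr t.1 t.2
        have hmem : ∀ w : Part (keyLab V hV) (keySet T), V w.1 → w.1 ≤ t.1 := fun w hw => by
          have h := w.2
          rw [keyLab_pos hV hw, coe_mem_keySet] at h
          exact htop _ h
        refine (key_max H adj (W := Part (keyLab V hV) (keySet T)) (P := {w // ¬V w}) _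
          ⟨fun w => if hw : V w.1 then ⟨a, haV⟩ else ⟨w.1, hw⟩, fun x y hxy => ?_⟩
          (fun w => V w.1) (fun x y hxy => hV hxy)
          ⟨t.1, by rw [keyLab_pos hV t.2, coe_mem_keySet]; exact htT⟩ (fun p => dif_neg p.2)
          (fun p => p.2) (fun w hw => ?_) (fun w hw => ?_) (fun w hw => hmem w hw) ?_ h).2
        · by_cases hx : V x.1
          · have hy : V y.1 := hV hxy hx
            simp only [hx, hy, dite_true, le_refl]
          · by_cases hy : V y.1
            · simp only [hx, hy, dite_true, dite_false]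
              exact ha _ hx (le_trans (show x.1 ≤ y.1 from hxy) (hmem y hy))
            · simp only [hx, hy, dite_false]
              exact hxy
        · exact Subtype.ext (show (dite (V w.1) (fun _ => (⟨a, haV⟩ : {w // ¬V w}))
            fun h => ⟨w.1, h⟩).1 = w.1 by rw [dif_neg hw])
        · show (dite (V w.1) (fun _ => (⟨a, haV⟩ : {w // ¬V w})) fun h => ⟨w.1, h⟩) =
            dite (V t.1) (fun _ => (⟨a, haV⟩ : {w // ¬V w})) fun h => ⟨t.1, h⟩
          rw [dif_pos hw, dif_pos t.2]
        · show (dite (V t.1) (fun _ => (⟨a, haV⟩ : {w // ¬V w})) fun h => ⟨t.1, h⟩).1 ≤ t.1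
          rw [dif_pos t.2]
          exact hat
      · obtain ⟨x, hxT, hx⟩ : ∃ x ∈ T, ¬x.1 ≤ t.1 := by
          push Not at htop
          exact htop
        let T₁ : Set {w // V w} := {v | v ∈ T ∧ v ≤ t}
        let T₂ : Set {w // V w} := {v | v ∈ T ∧ v ≠ t}
        have hT₁ : IsLowerSet T₁ := fun u v hvu hu => ⟨hT hvu hu.1, hvu.trans hu.2⟩
        have hT₂ : IsLowerSet T₂ := fun u v hvu hu => ⟨hT hvu hu.1, fun e =>
          hu.2 (le_antisymm (ht hu.1 (e ▸ hvu)) (e ▸ hvu))⟩
        have hlt : ∀ T' : Set {w // V w}, T' ⊂ T → T'.ncard ≤ k := fun T' h => by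
          have := Set.ncard_lt_ncard h (Set.toFinite T)
          omega
        have hs₁ : T₁ ⊂ T := ⟨fun v hv => hv.1, fun h => hx (h hxT).2⟩
        have hs₂ : T₂ ⊂ T := ⟨fun v hv => hv.1, fun h => (h htT).2 rfl⟩
        have hK : keySet (T₁ ∩ T₂) = keySet T₁ ∩ keySet T₂ := Set.ext fun l =>
          ⟨fun h => ⟨fun v e => (h v e).1, fun v e => (h v e).2⟩, fun h v e => ⟨h.1 v e, h.2 v e⟩⟩
        have w₁ := ih T₁ (hlt _ hs₁) hT₁
        have w₂ := ih T₂ (hlt _ hs₂) hT₂
        have w₀ := ih (T₁ ∩ T₂)
          (hlt _ (ssubset_of_subset_of_ssubset Set.inter_subset_left hs₁)) (hT₁.inter hT₂)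
        have h01 : keySet T₁ ⊆ keySet T := fun l h v e => (h v e).1
        have h02 : keySet T₂ ⊆ keySet T := fun l h v e => (h v e).1
        have hsq := isPushout_nerve_part lY H.hI (keySet T) (keySet T₁) (keySet T₂) h01 h02
          fun a l hl => by
            by_cases h : ∀ i, l i ∈ keySet T₂
            · exact Or.inr h
            · refine Or.inl fun i v ev => ⟨hl i v ev, ?_⟩
              obtain ⟨i', hi'⟩ := not_forall.1 h
              obtain ⟨u, hu⟩ : ∃ u : {w // V w}, l i' = u ∧ u ∉ T₂ := by
                simpa [keySet] using hi'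
              have hut : u = t := by
                by_contra hne
                exact hu.2 ⟨hl i' u hu.1, hne⟩
              subst hut
              have h1 : l i ≤ l (Fin.last a) := l.mono (Fin.le_last i)
              have h2 : l i' ≤ l (Fin.last a) := l.mono (Fin.le_last i')
              rw [hu.1] at h2
              obtain ⟨z, hz, huz⟩ := WithBot.coe_le_iff.1 h2
              rw [hz, ev, WithBot.coe_le_coe] at h1
              exact h1.trans (ht (hl _ z hz) huz)
        have hj : (nerveN n).map (incX (T₁ ∩ T₂)) ≫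
            (nerveN n).map (partLe lY (show keySet (T₁ ∩ T₂) ⊆ keySet T₁ from
              fun l h v e => (h v e).1)) = (nerveN n).map (incX T₁) := by
          rw [← Functor.map_comp]; rfl
        have hf : Spec.weq ((nerveN n).map (partLe lY (show keySet (T₁ ∩ T₂) ⊆ keySet T₁ from
              fun l h v e => (h v e).1))) := H.weq_left w₀ (by rw [hj]; exact w₁)
        have hf' : Spec.weq ((nerveN n).map (partLe lY
            (Set.inter_subset_left : keySet T₁ ∩ keySet T₂ ⊆ keySet T₁))) := by
          revert hf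
          generalize hg : (show keySet (T₁ ∩ T₂) ⊆ keySet T₁ from fun l h v e => (h v e).1) = p
          clear hg
          revert p
          rw [hK]
          exact fun _ h => h
        have := H.hP hsq (mono_map_partLe lY H.hI _) hf'
        have hfin : (nerveN n).map (incX T₂) ≫ (nerveN n).map (partLe lY h02) =
            (nerveN n).map (incX T) := by
          rw [← Functor.map_comp]; rfl
        rw [← hfin]
        exact H.weq_comp w₂ this
  have hu : IsIso ((nerveN n).map (partOfι lY (keySet (Set.univ : Set {w // V w})))) :=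
    isIso_map_partOfι lY _ fun _ _ v _ => Set.mem_univ v
  have e0 : (nerveN n).map (incX ∅) ≫ (nerveN n).map (partOfι lY (keySet ∅)) = (nerveN n).map i := by
    rw [← Functor.map_comp]; rfl
  have e1 : (nerveN n).map (incX Set.univ) ≫ (nerveN n).map (partOfι lY (keySet Set.univ)) =
      (nerveN n).map i := by
    rw [← Functor.map_comp]; rfl
  refine ⟨?_, ?_⟩
  · have := mono_map_partOfι lY H.hI (keySet ∅)
    rw [← e0]
    infer_instance
  · rw [← e1]
    exact H.weq_comp (hQ _ _ le_rfl isLowerSet_univ) (H.weq_iso _)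

end

end Vale.Agent.P213.Cells
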