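import Vale.Agent.P213.Cells.FullPushout

/-!
# P213: nerves of parts are subcomplexes; covers give pushouts
-/

namespace Vale.Agent.P213.Cells

open CategoryTheory CategoryTheory.Limits Opposite Simplicial

universe u

noncomputable section

variable {n : ℕ∞} {hn : 1 ≤ n} {L : Type u} [PartialOrder L] {X : NCat.{u} n}
  (ℓ : X ⟶ thin hn L)

/-- The simplices whose vertices have labels in `S`. -/
def labSub (S : Set L) : ((nerveN n).obj X).Subcomplex where
  obj m := Set.ofPred fun σ : Fun (oriental m.unop.len) X.obj =>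
    ∀ i, labelOf ℓ.hom (σ.toFun (vert i)) ∈ S
  map {m k} θ σ hσ i := by
    show labelOf ℓ.hom (σ.toFun ((orientalMap θ.unop.toOrderHom).toFun (vert i))) ∈ S
    rw [orientalMap_vert]
    exact hσ _

theorem labSub_mono {S T : Set L} (h : S ⊆ T) : labSub ℓ S ≤ labSub ℓ T :=
  fun _ _ hσ i => h (hσ i)

theorem labSub_inter (S T : Set L) : labSub ℓ (S ∩ T) = labSub ℓ S ⊓ labSub ℓ T := by
  refine le_antisymm (le_inf (labSub_mono ℓ Set.inter_subset_left)
    (labSub_mono ℓ Set.inter_subset_right)) ?_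
  exact fun m σ hσ i => ⟨hσ.1 i, hσ.2 i⟩

/-- The labels of the vertices of a simplex. -/
def labSeq {a : ℕ} (σ : Fun (oriental a) X.obj) : Fin (a + 1) →o L :=
  ⟨fun i => labelOf ℓ.hom (σ.toFun (vert i)),
    fun _ _ h => label_mono σ (isLabel_labelOf ℓ.hom) h⟩

theorem labSub_bicartSq (S D₁ D₂ : Set L) (h₁ : D₁ ⊆ S) (h₂ : D₂ ⊆ S)
    (hcov : ∀ (a : ℕ) (l : Fin (a + 1) →o L), (∀ i, l i ∈ S) →
      (∀ i, l i ∈ D₁) ∨ ∀ i, l i ∈ D₂) :
    SSet.Subcomplex.BicartSq (labSub ℓ (D₁ ∩ D₂)) (labSub ℓ D₁) (labSub ℓ D₂) (labSub ℓ S) where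
  inf_eq := (labSub_inter ℓ D₁ D₂).symm
  sup_eq := by
    refine le_antisymm (sup_le (labSub_mono ℓ h₁) (labSub_mono ℓ h₂)) ?_
    intro m σ hσ
    rcases hcov _ (labSeq ℓ σ) hσ with h | h
    · exact Or.inl h
    · exact Or.inr h

/-- The inclusion between parts. -/
def partLe {S T : Set L} (h : S ⊆ T) : partOf ℓ S ⟶ partOf ℓ T :=
  ObjectProperty.homMk (X.obj.toSub (partOfι ℓ S).hom _
    (X.obj.full_closed fun o => labelOf ℓ.hom o ∈ T) fun x => ⟨h x.2.1, h x.2.2⟩)

theorem partLe_ι {S T : Set L} (h : S ⊆ T) : partLe ℓ h ≫ partOfι ℓ T = partOfι ℓ S := rfl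

variable (hI : Spec.Interval)

/-- The nerve of a part is the subcomplex of simplices with labels in it. -/
def nervePartIso (S : Set L) : (nerveN n).obj (partOf ℓ S) ≅ (labSub ℓ S).toSSet :=
  NatIso.ofComponents (fun m => Equiv.toIso
    { toFun := fun σ => ⟨σ.comp (partOfι ℓ S).hom, fun i => by
        have h := (σ.toFun (vert i)).2.1
        have e : X.obj.s 0 (σ.toFun (vert i)).1 = (σ.toFun (vert i)).1 := by
          have h' := σ.map_s 0 (vert i)
          rw [show (oriental _).s 0 (vert i) = vert i from face_vert _ _ _] at h'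
          exact (congrArg Subtype.val h').symm
        rw [e] at h
        exact h⟩
      invFun := fun σ => X.obj.toSub σ.1 _ (X.obj.full_closed fun o => labelOf ℓ.hom o ∈ S)
        fun p => by
          have h : ∀ τ : Fun (oriental m.unop.len) X.obj,
              (∀ i, labelOf ℓ.hom (τ.toFun (vert i)) ∈ S) →
              labelOf ℓ.hom (X.obj.s 0 (τ.toFun p)) ∈ S ∧
                labelOf ℓ.hom (X.obj.t 0 (τ.toFun p)) ∈ S := fun τ hτ => by
            rw [← τ.map_s, ← τ.map_t,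
              show (oriental _).s 0 p = vert (srcV hI p) from s_zero hI p,
              show (oriental _).t 0 p = vert (tgtV hI p) from t_zero hI p]
            exact ⟨hτ _, hτ _⟩
          exact h σ.1 σ.2
      left_inv := fun σ => Fun.ext fun p => rfl
      right_inv := fun σ => rfl }) fun θ => rfl

theorem nervePartIso_le {S T : Set L} (h : S ⊆ T) :
    (nerveN n).map (partLe ℓ h) ≫ (nervePartIso ℓ hI T).hom =
      (nervePartIso ℓ hI S).hom ≫ SSet.Subcomplex.homOfLE (labSub_mono ℓ h) := rfl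

theorem nervePartIso_ι (S : Set L) :
    (nervePartIso ℓ hI S).hom ≫ (labSub ℓ S).ι = (nerveN n).map (partOfι ℓ S) := rfl

include hI in
theorem mono_map_partOfι (S : Set L) : Mono ((nerveN n).map (partOfι ℓ S)) := by
  rw [← nervePartIso_ι ℓ hI S]
  infer_instance

include hI in
theorem mono_map_partLe {S T : Set L} (h : S ⊆ T) : Mono ((nerveN n).map (partLe ℓ h)) := by
  have : Mono ((nerveN n).map (partLe ℓ h) ≫ (nerveN n).map (partOfι ℓ T)) := by
    rw [← Functor.map_comp, partLe_ι]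
    exact mono_map_partOfι ℓ hI S
  exact mono_of_mono _ ((nerveN n).map (partOfι ℓ T))

include hI in
/-- A cover by two sets of labels makes the nerve a pushout. -/
theorem isPushout_nerve_part (S D₁ D₂ : Set L) (h₁ : D₁ ⊆ S) (h₂ : D₂ ⊆ S)
    (hcov : ∀ (a : ℕ) (l : Fin (a + 1) →o L), (∀ i, l i ∈ S) →
      (∀ i, l i ∈ D₁) ∨ ∀ i, l i ∈ D₂) :
    IsPushout ((nerveN n).map (partLe ℓ (Set.inter_subset_left : D₁ ∩ D₂ ⊆ D₁)))
      ((nerveN n).map (partLe ℓ (Set.inter_subset_right : D₁ ∩ D₂ ⊆ D₂)))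
      ((nerveN n).map (partLe ℓ h₁)) ((nerveN n).map (partLe ℓ h₂)) :=
  IsPushout.of_iso (labSub_bicartSq ℓ S D₁ D₂ h₁ h₂ hcov).isPushout
    (nervePartIso ℓ hI (D₁ ∩ D₂)).symm (nervePartIso ℓ hI D₁).symm (nervePartIso ℓ hI D₂).symm
    (nervePartIso ℓ hI S).symm rfl rfl rfl rfl

/-- Everything is the whole nerve. -/
theorem isIso_map_partOfι (S : Set L) (h : ∀ o, X.obj.s 0 o = o → labelOf ℓ.hom o ∈ S) :
    IsIso ((nerveN n).map (partOfι ℓ S)) := by
  have := isIso_partOfι ℓ S h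
  infer_instance

end

end Vale.Agent.P213.Cells
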