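import Vale.Agent.P213.Cells.Cone
import Vale.Agent.P213.Cells.Basic

/-!
# P213: sweeping an up-closed part of a poset onto one element

Given monotone `F G : E → E` that agree outside an up-closed `V`, with `G = t` on `V` and `F` below
`t` under `V`, the two induced simplices are joined by a cylinder, naturally in simplices.
-/

namespace Vale.Agent.P213.Cells

open CategoryTheory Opposite Simplicial

universe u

noncomputable section

/-- The data provided by the cylinder module. -/
structure Cyl (n : ℕ∞) where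
  Γ : NCat.{u} n ⥤ NCat.{u} n
  e₀ : Γ ⟶ 𝟭 _
  e₁ : Γ ⟶ 𝟭 _
  cst : 𝟭 _ ⟶ Γ
  cst₀ : cst ≫ e₀ = 𝟙 _
  cst₁ : cst ≫ e₁ = 𝟙 _
  htpic : ∀ X, Spec.Htpic ((nerveN n).map (e₀.app X)) ((nerveN n).map (e₁.app X))
  hmap : ∀ (X : NCat.{u} n) {a b : ℕ}, CylData a b → Fun (oriental b) X.obj →
    Fun (oriental a) (Γ.obj X).obj
  hmap₀ : ∀ X a b (D : CylData a b) σ,
    (hmap X D σ).comp (e₀.app X).hom = (orientalMap D.f).comp σ
  hmap₁ : ∀ X a b (D : CylData a b) σ,
    (hmap X D σ).comp (e₁.app X).hom = (orientalMap D.g).comp σ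
  hmap_map : ∀ X Y (F : X ⟶ Y) a b (D : CylData a b) σ,
    (hmap X D σ).comp (Γ.map F).hom = hmap Y D (σ.comp F.hom)
  hmap_natural : ∀ X a b a' b' (D : CylData a b) (D' : CylData a' b')
    (θ : Fin (a' + 1) →o Fin (a + 1)) (φ : Fin (b' + 1) →o Fin (b + 1)),
    D.f.comp θ = φ.comp D'.f → D.g.comp θ = φ.comp D'.g →
    (∀ c, extN D.h (imageBasis θ c) = imageChain φ (D'.h c)) →
    ∀ σ, (orientalMap θ).comp (hmap X D σ) = hmap X D' ((orientalMap φ).comp σ)
  hmap_zero : ∀ X a b (D : CylData a b) σ, D.f = D.g → (∀ c, D.h c = 0) →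
    hmap X D σ = ((orientalMap D.f).comp σ).comp (cst.app X).hom

theorem nonempty_cyl {n : ℕ∞} (h : Spec.Cylinder.{u} n) : Nonempty (Cyl.{u} n) := by
  obtain ⟨Γ, e₀, e₁, cst, h₀, h₁, hh, hmap, hp, hnat, hnat', hz⟩ := h
  exact ⟨⟨Γ, e₀, e₁, cst, h₀, h₁, hh, hmap, fun X a b D σ => (hp X a b D σ).1,
    fun X a b D σ => (hp X a b D σ).2, hnat, hnat', hz⟩⟩

/-- The data of a sweep. -/
structure Sweep (E : Type u) [PartialOrder E] where
  F : E →o E
  G : E →o E
  V : E → Prop
  t : E
  upper : Monotone V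
  le : ∀ x y, x ≤ y → V y → F x ≤ t
  pos : ∀ x, V x → G x = t
  neg : ∀ x, ¬V x → G x = F x

namespace Sweep

variable {E : Type u} [PartialOrder E] (S : Sweep E) {a b : ℕ}

open Classical in
/-- A sequence moved by `F`, extended by `t` if it meets `V`. -/
def extSeq (w : Fin (a + 1) →o E) : Fin (a + 1 + 1) →o E where
  toFun := Fin.lastCases (if S.V (w (Fin.last a)) then S.t else S.F (w (Fin.last a)))
    fun i => S.F (w i)
  monotone' i j h := by
    dsimp only
    induction i using Fin.lastCases with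
    | last =>
      obtain rfl : j = Fin.last _ := le_antisymm (Fin.le_last _) h
      exact le_rfl
    | cast i =>
      induction j using Fin.lastCases with
      | last =>
        rw [Fin.lastCases_last, Fin.lastCases_castSucc]
        split_ifs with hV
        · exact S.le _ _ (w.mono (Fin.le_last i)) hV
        · exact S.F.mono (w.mono (Fin.le_last i))
      | cast j =>
        rw [Fin.lastCases_castSucc, Fin.lastCases_castSucc]
        exact S.F.mono (w.mono (Fin.castSucc_le_castSucc_iff.1 h))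

theorem extSeq_castSucc (w : Fin (a + 1) →o E) (i : Fin (a + 1)) :
    S.extSeq w i.castSucc = S.F (w i) := by
  show Fin.lastCases (motive := fun _ => E) _ _ i.castSucc = _
  rw [Fin.lastCases_castSucc]

open Classical in
theorem extSeq_last (w : Fin (a + 1) →o E) : S.extSeq w (Fin.last _) =
    if S.V (w (Fin.last a)) then S.t else S.F (w (Fin.last a)) := by
  show Fin.lastCases (motive := fun _ => E) _ _ (Fin.last (a + 1)) = _
  rw [Fin.lastCases_last]

/-- The vertices of a sequence in `V`. -/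
abbrev pred (w : Fin (a + 1) →o E) : Fin (a + 1) → Prop := fun i => S.V (w i)

theorem pred_mono (w : Fin (a + 1) →o E) : Monotone (S.pred w) := fun _ _ h => S.upper (w.mono h)

theorem extSeq_fst (w : Fin (a + 1) →o E) : (S.extSeq w).comp (fstMap a) = S.F.comp w :=
  OrderHom.ext _ _ (funext fun i => S.extSeq_castSucc w i)

theorem extSeq_snd (w : Fin (a + 1) →o E) :
    (S.extSeq w).comp (sndMap (S.pred w) (S.pred_mono w)) = S.G.comp w := by
  refine OrderHom.ext _ _ (funext fun i => ?_)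
  show S.extSeq w (sndMap (S.pred w) (S.pred_mono w) i) = S.G (w i)
  by_cases h : S.V (w i)
  · rw [sndMap_pos h, extSeq_last, if_pos (S.upper (w.mono (Fin.le_last i)) h), S.pos _ h]
  · rw [sndMap_neg h, extSeq_castSucc, S.neg _ h]

theorem extSeq_lift (w : Fin (a + 1) →o E) (θ : Fin (b + 1) →o Fin (a + 1))
    (h : S.V (w (θ (Fin.last b)))) :
    (S.extSeq w).comp (liftMap θ) = S.extSeq (w.comp θ) := by
  refine OrderHom.ext _ _ (funext fun i => ?_)
  show S.extSeq w (liftMap θ i) = S.extSeq (w.comp θ) i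
  induction i using Fin.lastCases with
  | last =>
    rw [liftMap_last, extSeq_last, extSeq_last, if_pos (S.upper (w.mono (Fin.le_last _)) h),
      if_pos (show S.V ((w.comp θ) (Fin.last b)) from h)]
  | cast i =>
    rw [liftMap_castSucc, extSeq_castSucc, extSeq_castSucc]
    rfl

variable {n : ℕ∞} (C : Cyl.{u} n) {X : NCat.{u} n} (g : nerve E ⟶ (nerveN n).obj X)

/-- The cylinder over one simplex. -/
def cylSimp (w : Fin (a + 1) →o E) : Fun (oriental a) (C.Γ.obj X).obj :=
  C.hmap X (coneData (S.pred w) (S.pred_mono w)) (simp' (Y := X.obj) g (S.extSeq w))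

theorem cylSimp_zero (w : Fin (a + 1) →o E) (h : ∀ i, ¬S.V (w i)) :
    S.cylSimp C g w = (simp' (Y := X.obj) g (S.F.comp w)).comp (C.cst.app X).hom := by
  rw [cylSimp, C.hmap_zero _ _ _ _ _ (sndMap_eq_fst (S.pred_mono w) h) (coneH_eq_zero h)]
  exact congrArg (fun s => Fun.comp s (C.cst.app X).hom)
    ((simp'_natural (Y := X.obj) g _ _).trans (congrArg _ (S.extSeq_fst w)))

theorem cylSimp_natural (w : Fin (a + 1) →o E) (θ : Fin (b + 1) →o Fin (a + 1)) :
    (orientalMap θ).comp (S.cylSimp C g w) = S.cylSimp C g (w.comp θ) := by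
  refine (C.hmap_natural X a (a + 1) b (b + 1) (coneData (S.pred w) (S.pred_mono w))
    (coneData (S.pred (w.comp θ)) (S.pred_mono (w.comp θ))) θ (liftMap θ) (fst_comp θ)
    (snd_comp θ (S.pred w) (S.pred_mono w) (S.pred (w.comp θ)) (S.pred_mono (w.comp θ))
      fun _ => Iff.rfl)
    (coneH_natural θ (S.pred w) (S.pred (w.comp θ)) fun _ => Iff.rfl)
    (simp' (Y := X.obj) g (S.extSeq w))).trans ?_
  by_cases h : S.V (w (θ (Fin.last b)))
  · rw [simp'_natural (Y := X.obj) g, S.extSeq_lift w θ h]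
    rfl
  · have h' : ∀ i, ¬S.V ((w.comp θ) i) := fun i hi =>
      h (S.upper (w.mono (θ.mono (Fin.le_last i))) hi)
    rw [S.cylSimp_zero C g _ h', C.hmap_zero _ _ _ _ _ (sndMap_eq_fst (S.pred_mono _) h')
      (coneH_eq_zero h')]
    refine congrArg (fun s => Fun.comp s (C.cst.app X).hom) ?_
    show (orientalMap (fstMap b)).comp _ = _
    refine (congrArg (fun s => Fun.comp (orientalMap (fstMap b)) s)
      (simp'_natural (Y := X.obj) g _ _)).trans ?_
    refine (simp'_natural (Y := X.obj) g _ _).trans (congrArg _ (OrderHom.ext _ _ (funext fun i => ?_)))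
    show S.extSeq w (liftMap θ (fstMap b i)) = S.F (w (θ i))
    rw [show fstMap b i = i.castSucc from rfl, liftMap_castSucc, extSeq_castSucc]

/-- The cylinder over the nerve. -/
def hom : nerve E ⟶ (nerveN n).obj (C.Γ.obj X) :=
  nerveHom (Y := (C.Γ.obj X).obj) (fun _ w => S.cylSimp C g w) fun _ _ w θ =>
    S.cylSimp_natural C g w θ

theorem hom_e₀ : S.hom C g ≫ (nerveN n).map (C.e₀.app X) =
    nerveMap S.F.monotone.functor ≫ g := by
  refine nerve_hom_ext (Y := X.obj) fun a w => ?_
  refine (simp'_comp (Y := (C.Γ.obj X).obj) (S.hom C g) (C.e₀.app X).hom w).trans ?_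
  rw [hom, simp'_nerveHom, cylSimp, C.hmap₀]
  refine ((simp'_natural (Y := X.obj) g _ _).trans (congrArg _ (S.extSeq_fst w))).trans ?_
  exact (simp'_nerveMap S.F g w).symm

theorem hom_e₁ : S.hom C g ≫ (nerveN n).map (C.e₁.app X) =
    nerveMap S.G.monotone.functor ≫ g := by
  refine nerve_hom_ext (Y := X.obj) fun a w => ?_
  refine (simp'_comp (Y := (C.Γ.obj X).obj) (S.hom C g) (C.e₁.app X).hom w).trans ?_
  rw [hom, simp'_nerveHom, cylSimp, C.hmap₁]
  refine ((simp'_natural (Y := X.obj) g _ _).trans (congrArg _ (S.extSeq_snd w))).trans ?_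
  exact (simp'_nerveMap S.G g w).symm

theorem simp'_hom_zero (w : Fin (a + 1) →o E) (h : ∀ i, ¬S.V (w i)) :
    simp' (Y := (C.Γ.obj X).obj) (S.hom C g) w = (simp' (Y := X.obj) g (S.F.comp w)).comp (C.cst.app X).hom :=
  S.cylSimp_zero C g w h

end Sweep

end

end Vale.Agent.P213.Cells
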