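import Vale.Agent.P213.Cells.Sweep
import Vale.Agent.P213.Cells.Nerve
import Vale.Agent.P213.SSet.SpecBasic

/-!
# P213: the unit is a weak equivalence at nerves of finite posets
-/

namespace Vale.Agent.P213.Cells

open CategoryTheory CategoryTheory.Limits Opposite Simplicial

universe u

noncomputable section

/-- What the poset arguments use from the other modules. -/
structure Inputs (n : ℕ∞) where
  hn : 1 ≤ n
  hI : Spec.Interval
  hR : Spec.Restrict.{u, u}
  C : Cyl.{u} n
  hB : Spec.WeqBasic.{u}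
  hH : Spec.WeqHomotopyEquiv.{u}
  hN : Spec.NerveHomotopy.{u}
  hP : Spec.WeqPushout.{u}
  hG : Spec.WeqGluing.{u}

variable {n : ℕ∞} (H : Inputs.{u} n)

theorem htpic_comp_left {X Y Z : SSet.{u}} {f g : Y ⟶ Z} (h : Spec.Htpic f g) (k : X ⟶ Y) :
    Spec.Htpic (k ≫ f) (k ≫ g) := by
  induction h with
  | rel p q h =>
    exact Relation.EqvGen.rel _ _ ((SSetH.htp_of_homotopy h.some).comp_left k).homotopy
  | refl p => exact Relation.EqvGen.refl _
  | symm p q _ ih => exact ih.symm _ _
  | trans p q r _ _ ih ih' => exact ih.trans _ _ _ ih'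

namespace Inputs

include H

theorem weq_comp {X Y Z : SSet.{u}} {f : X ⟶ Y} {g : Y ⟶ Z} (hf : Spec.weq f) (hg : Spec.weq g) :
    Spec.weq (f ≫ g) := by
  have := H.hB.1
  exact MorphismProperty.comp_mem _ _ _ hf hg

theorem weq_left {X Y Z : SSet.{u}} {f : X ⟶ Y} {g : Y ⟶ Z} (hf : Spec.weq f)
    (h : Spec.weq (f ≫ g)) : Spec.weq g := by
  have := H.hB.1
  exact MorphismProperty.of_precomp _ f g hf h

theorem weq_right {X Y Z : SSet.{u}} {f : X ⟶ Y} {g : Y ⟶ Z} (hg : Spec.weq g)
    (h : Spec.weq (f ≫ g)) : Spec.weq f := by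
  have := H.hB.1
  exact MorphismProperty.of_postcomp _ f g hg h

theorem weq_iso {X Y : SSet.{u}} (f : X ⟶ Y) [IsIso f] : Spec.weq f := by
  refine H.hH X Y f (inv f) ?_ ?_
  · rw [IsIso.hom_inv_id]; exact Relation.EqvGen.refl _
  · rw [IsIso.inv_hom_id]; exact Relation.EqvGen.refl _

/-- The two ends of a map into a cylinder have homotopic nerves. -/
theorem htpic_ends {X Y : NCat.{u} n} (K : X ⟶ H.C.Γ.obj Y) :
    Spec.Htpic ((nerveN n).map (K ≫ H.C.e₀.app Y)) ((nerveN n).map (K ≫ H.C.e₁.app Y)) := by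
  rw [Functor.map_comp, Functor.map_comp]
  exact htpic_comp_left (H.C.htpic Y) _

end Inputs

variable {c : SSet.{u} ⥤ NCat.{u} n} (adj : c ⊣ nerveN n) {E E' : Type u} [PartialOrder E]
  [PartialOrder E'] {a b : ℕ}

theorem freeMap_comp {E'' : Type u} [PartialOrder E''] (f : E →o E') (g : E' →o E'') :
    freeMap c (g.comp f) = freeMap c f ≫ freeMap c g := by
  rw [← c.map_comp]
  exact congrArg c.map rfl

theorem freeMap_id : freeMap c (OrderHom.id : E →o E) = 𝟙 _ := by
  rw [← c.map_id]
  exact congrArg c.map rfl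

theorem isIso_freeMap (f : E →o E') (g : E' →o E) (h₁ : ∀ x, g (f x) = x) (h₂ : ∀ y, f (g y) = y) :
    IsIso (freeMap c f) :=
  ⟨freeMap c g,
    by rw [← freeMap_comp, show g.comp f = OrderHom.id from OrderHom.ext _ _ (funext h₁), freeMap_id],
    by rw [← freeMap_comp, show f.comp g = OrderHom.id from OrderHom.ext _ _ (funext h₂), freeMap_id]⟩

theorem unit_freeLift {X : NCat.{u} n} (g : nerve E ⟶ (nerveN n).obj X) :
    adj.unit.app (nerve E) ≫ (nerveN n).map (freeLift adj g) = g :=
  ((adj.homEquiv_unit _ _ _).symm).trans ((adj.homEquiv _ _).apply_symm_apply g)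

theorem unit_freeMap (f : E →o E') :
    adj.unit.app (nerve E) ≫ (nerveN n).map (freeMap c f) =
      nerveMap f.monotone.functor ≫ adj.unit.app (nerve E') :=
  (adj.unit.naturality (nerveMap f.monotone.functor)).symm

include adj in
theorem free_hom_ext_unit {X : NCat.{u} n} {f f' : free c E ⟶ X}
    (h : adj.unit.app (nerve E) ≫ (nerveN n).map f =
      adj.unit.app (nerve E) ≫ (nerveN n).map f') : f = f' := by
  refine (adj.homEquiv _ _).injective ?_
  rw [adj.homEquiv_unit, adj.homEquiv_unit]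
  exact h

include H in
theorem oriental_zero_eq (p : (simplexADC 0).Cell) : p = vert 0 := by
  refine ADC.Cell.ext fun k e => ?_
  obtain ⟨i, j, h0, h1, -, hs⟩ := H.hI 0 p
  rw [vert_x]
  rcases k with _ | k
  · rw [if_pos rfl]
    cases e
    · rw [h0]; exact congrArg (Finsupp.single · 1) (Subtype.ext (by simp [Fin.fin_one_eq_zero i]))
    · rw [h1]; exact congrArg (Finsupp.single · 1) (Subtype.ext (by simp [Fin.fin_one_eq_zero j]))
  · rw [if_neg (Nat.succ_ne_zero k)]
    ext s
    by_contra hne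
    have h' : s.1.card - 1 = k + 1 := p.deg_eq (k + 1) e s hne
    have : s.1.card ≤ 1 := (Finset.card_le_univ s.1).trans (by simp)
    omega

include H in
/-- The unit is a weak equivalence if there is a greatest element. -/
theorem weq_unit_of_max (t : E) (ht : ∀ x, x ≤ t) : Spec.weq (adj.unit.app (nerve E)) := by
  let S : Sweep E :=
    { F := OrderHom.id
      G := ⟨fun _ => t, monotone_const⟩
      V := fun _ => True
      t := t
      upper := monotone_const
      le := fun x _ _ _ => ht x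
      pos := fun _ _ => rfl
      neg := fun _ h => (h trivial).elim }
  let K : free c E ⟶ H.C.Γ.obj (free c E) := freeLift adj (S.hom H.C (adj.unit.app (nerve E)))
  have hK₀ : K ≫ H.C.e₀.app _ = 𝟙 _ := free_hom_ext_unit adj (by
    rw [Functor.map_comp, ← Category.assoc, unit_freeLift, S.hom_e₀, CategoryTheory.Functor.map_id]
    exact (Category.id_comp (adj.unit.app (nerve E))).trans
      (Category.comp_id (adj.unit.app (nerve E))).symm)
  let v : (free c E).obj.carrier := (sig adj (⟨fun _ => t, monotone_const⟩ : Fin 1 →o E)).toFun (vert 0)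
  have hv : (free c E).obj.s 0 v = v := by
    rw [← (sig adj (⟨fun _ => t, monotone_const⟩ : Fin 1 →o E)).map_s]
    exact congrArg _ (face_vert _ _ _)
  have hsig : ∀ a, sig adj (⟨fun _ => t, monotone_const⟩ : Fin (a + 1) →o E) =
      constFun (free c E).obj v hv := by
    intro a
    rw [show (⟨fun _ => t, monotone_const⟩ : Fin (a + 1) →o E) =
      (⟨fun _ => t, monotone_const⟩ : Fin 1 →o E).comp ⟨fun _ => 0, monotone_const⟩ from rfl,
      ← sig_natural]
    refine Fun.ext fun p => congrArg (sig adj _).toFun ?_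
    exact oriental_zero_eq H _
  have hK₁ : K ≫ H.C.e₁.app _ = ObjectProperty.homMk (constFun (free c E).obj v hv) := by
    refine free_hom_ext adj fun a w => ?_
    refine Eq.trans ?_ (Fun.ext fun p => rfl : constFun (free c E).obj v hv =
      (sig adj w).comp (constFun (free c E).obj v hv))
    rw [← hsig a]
    show ((sig adj w).comp K.hom).comp (H.C.e₁.app _).hom = _
    rw [sig_freeLift, Sweep.hom, simp'_nerveHom, Sweep.cylSimp, H.C.hmap₁]
    exact (sig_natural adj _ _).trans (congrArg (sig adj) (S.extSeq_snd w))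
  let r : (nerveN n).obj (free c E) ⟶ nerve E :=
    { app := fun m => TypeCat.ofHom fun _ =>
        mkS (⟨fun _ => t, monotone_const⟩ : Fin (m.unop.len + 1) →o E)
      naturality := fun _ _ _ => ConcreteCategory.hom_ext _ _ fun _ =>
        ComposableArrows.ext (fun _ => rfl) (fun _ _ => Subsingleton.elim _ _) }
  refine H.hH _ _ _ r ?_ ?_
  · have e : adj.unit.app (nerve E) ≫ r = nerveMap (S.G.monotone).functor := by
      ext m s i
      rfl
    rw [e]
    exact (H.hN E E _ _ monotone_id S.G.monotone ht).symm _ _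
  · have e : r ≫ adj.unit.app (nerve E) = (nerveN n).map (K ≫ H.C.e₁.app _) := by
      rw [hK₁]
      ext m σ
      exact (hsig m.unop.len).trans (Fun.ext fun p => rfl)
    have h := H.htpic_ends K
    rw [hK₀, CategoryTheory.Functor.map_id, ← e] at h
    exact h.symm _ _

/-! ### Nerves of parts of posets -/

variable {L : Type u} [PartialOrder L] (ℓ : E →o L)

/-- The simplices of a nerve with labels in `D`. -/
def nerveSub (D : Set L) : (nerve E).Subcomplex where
  obj m := Set.ofPred fun s : (nerve E).obj m => ∀ i, ℓ (s.obj i) ∈ D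
  map _ _ hs _ := hs _

/-- The nerve of a part of a poset. -/
def nerveSubIso (D : Set L) : nerve (Part ℓ D) ≅ (nerveSub ℓ D).toSSet :=
  NatIso.ofComponents (fun m => Equiv.toIso
    { toFun := fun s => ⟨(nerveMap (partIncl ℓ D).monotone.functor).app m s, fun i => (s.obj i).2⟩
      invFun := fun s => Monotone.functor
        (f := fun i => (⟨(s.1 : (nerve E).obj m).obj i, s.2 i⟩ : Part ℓ D))
        fun _ _ h => leOfHom ((s.1 : (nerve E).obj m).map (homOfLE h))
      left_inv := fun s => ComposableArrows.ext (fun _ => rfl) (fun _ _ => Subsingleton.elim _ _)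
      right_inv := fun s => Subtype.ext
        (ComposableArrows.ext (fun _ => rfl) (fun _ _ => Subsingleton.elim _ _)) }) fun _ => rfl

/-- The inclusion between parts of a poset. -/
abbrev partInclLe {S T : Set L} (h : S ⊆ T) : Part ℓ S →o Part ℓ T :=
  ⟨fun e => ⟨e.1, h e.2⟩, fun _ _ h => h⟩

theorem isPushout_nerve_poset (D₁ D₂ : Set L) (hcov : ∀ (a : ℕ) (l : Fin (a + 1) →o L),
    (∀ i, l i ∈ D₁) ∨ ∀ i, l i ∈ D₂) :
    IsPushout (nerveMap (partInclLe ℓ (Set.inter_subset_left : D₁ ∩ D₂ ⊆ D₁)).monotone.functor)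
      (nerveMap (partInclLe ℓ (Set.inter_subset_right : D₁ ∩ D₂ ⊆ D₂)).monotone.functor)
      (nerveMap (partIncl ℓ D₁).monotone.functor) (nerveMap (partIncl ℓ D₂).monotone.functor) := by
  have sq : SSet.Subcomplex.BicartSq (nerveSub ℓ (D₁ ∩ D₂)) (nerveSub ℓ D₁) (nerveSub ℓ D₂) ⊤ :=
    { inf_eq := le_antisymm (fun m s hs i => ⟨hs.1 i, hs.2 i⟩)
        (le_inf (fun _ _ hs i => (hs i).1) fun _ _ hs i => (hs i).2)
      sup_eq := le_antisymm le_top fun m s _ => by
        rcases hcov m.unop.len (ℓ.comp (seqOf (s : (nerve E).obj m))) with h | h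
        · exact Or.inl h
        · exact Or.inr h }
  exact IsPushout.of_iso sq.isPushout (nerveSubIso ℓ _).symm (nerveSubIso ℓ _).symm
    (nerveSubIso ℓ _).symm (SSet.Subcomplex.topIso (nerve E)) rfl rfl rfl rfl

include H in
/-- The square relating a part to the whole. -/
theorem weq_unit_part {D : Set L} (hD : D.OrdConnected)
    (h : Spec.weq (adj.unit.app (nerve (Part ℓ D)))) :
    Spec.weq (adj.unit.app (nerve (Part ℓ D)) ≫
      (nerveN n).map (partMap H.hn adj H.hI ℓ D)) := by
  have := isIso_partMap H.hn adj H.hI H.hR ℓ D hD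
  exact H.weq_comp h (H.weq_iso _)

theorem unit_partMap_ι (D : Set L) :
    (adj.unit.app (nerve (Part ℓ D)) ≫ (nerveN n).map (partMap H.hn adj H.hI ℓ D)) ≫
      (nerveN n).map (partOfι (labFun H.hn adj H.hI ℓ) D) =
      nerveMap (partIncl ℓ D).monotone.functor ≫ adj.unit.app (nerve E) := by
  rw [Category.assoc, ← Functor.map_comp, ← unit_freeMap]
  rfl

theorem partMap_le {S T : Set L} (h : S ⊆ T) :
    partMap H.hn adj H.hI ℓ S ≫ partLe (labFun H.hn adj H.hI ℓ) h =
      freeMap c (partInclLe ℓ h) ≫ partMap H.hn adj H.hI ℓ T := by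
  refine ObjectProperty.hom_ext _ (Fun.ext fun x => Subtype.ext ?_)
  refine (partMap_toFun H.hn adj H.hI ℓ S x).trans ?_
  refine Eq.trans ?_ (partMap_toFun H.hn adj H.hI ℓ T _).symm
  exact congrArg (fun F : free c (Part ℓ S) ⟶ free c E => F.hom.toFun x)
    (freeMap_comp (partInclLe ℓ h) (partIncl ℓ T))

theorem mono_nerveMap (f : E →o E') (hf : Function.Injective f) :
    Mono (nerveMap f.monotone.functor) := by
  have : ∀ m, Mono ((nerveMap f.monotone.functor).app m) := fun m => by
    rw [mono_iff_injective]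
    intro s s' h
    refine ComposableArrows.ext (fun i => hf ?_) (fun _ _ => Subsingleton.elim _ _)
    exact congrArg (fun q : (nerve E').obj m => q.obj i) h
  exact NatTrans.mono_of_mono_app _

include H in
theorem weq_unit_of_isEmpty [IsEmpty E] : Spec.weq (adj.unit.app (nerve E)) := by
  have he : ∀ m, IsEmpty ((nerveN n).obj (free c E) |>.obj m) := fun m => ⟨fun σ =>
    isEmptyElim (labelOf (labFun H.hn adj H.hI (OrderHom.id : E →o E)).hom
      ((σ : Fun (oriental m.unop.len) (free c E).obj).toFun (vert 0)))⟩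
  have hs : ∀ m, IsEmpty ((nerve E).obj m) := fun m => ⟨fun s => isEmptyElim (s.obj 0)⟩
  have : IsIso (adj.unit.app (nerve E)) := by
    rw [NatTrans.isIso_iff_isIso_app]
    intro m
    rw [isIso_iff_bijective]
    exact ⟨fun s => ((hs m).false s).elim, fun σ => ((he m).false σ).elim⟩
  exact H.weq_iso _

include H in
/-- The unit is a weak equivalence at the nerve of every finite poset. -/
theorem weq_unit_finite (E : Type u) [PartialOrder E] [Finite E] :
    Spec.weq (adj.unit.app (nerve E)) := by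
  induction hk : Nat.card E using Nat.strong_induction_on generalizing E with
  | _ k ih =>
  subst hk
  rcases isEmpty_or_nonempty E with hE | hE
  · exact weq_unit_of_isEmpty H adj
  obtain ⟨t, -, ht⟩ := Set.finite_univ.exists_maximal (Set.univ_nonempty (α := E))
  by_cases htop : ∀ x, x ≤ t
  · exact weq_unit_of_max H adj t htop
  obtain ⟨x, hx⟩ := not_forall.1 htop
  let ℓ : E →o E := OrderHom.id
  let D₁ : Set E := {y | y ≤ t}
  let D₂ : Set E := {y | y ≠ t}
  have hD₁ : D₁.OrdConnected :=
    IsLowerSet.ordConnected fun _ _ h h' => h.trans h'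
  have hD₂ : D₂.OrdConnected := IsLowerSet.ordConnected fun a b (h : b ≤ a) (h' : a ≠ t) e =>
    h' (le_antisymm (ht (Set.mem_univ a) (e ▸ h)) (e ▸ h))
  have hcov : ∀ (a : ℕ) (l : Fin (a + 1) →o E), (∀ i, l i ∈ D₁) ∨ ∀ i, l i ∈ D₂ := by
    intro a l
    by_cases h : ∀ i, l i ≠ t
    · exact Or.inr h
    · obtain ⟨i, hi⟩ := not_forall.1 h
      rw [not_not] at hi
      exact Or.inl fun j => (l.mono (Fin.le_last j)).trans
        (ht (Set.mem_univ _) (hi.symm.le.trans (l.mono (Fin.le_last i))))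
  have w₁ : Spec.weq (adj.unit.app (nerve (Part ℓ D₁)) ≫
      (nerveN n).map (partMap H.hn adj H.hI ℓ D₁)) :=
    weq_unit_part H adj ℓ hD₁ (ih _ (Finite.card_subtype_lt (x := x) hx) _ rfl)
  have w₂ : Spec.weq (adj.unit.app (nerve (Part ℓ D₂)) ≫
      (nerveN n).map (partMap H.hn adj H.hI ℓ D₂)) :=
    weq_unit_part H adj ℓ hD₂
      (ih _ (Finite.card_subtype_lt (x := t) fun h => h rfl) _ rfl)
  have w₀ : Spec.weq (adj.unit.app (nerve (Part ℓ (D₁ ∩ D₂))) ≫
      (nerveN n).map (partMap H.hn adj H.hI ℓ (D₁ ∩ D₂))) :=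
    weq_unit_part H adj ℓ (hD₁.inter hD₂)
      (ih _ (Finite.card_subtype_lt (x := t) fun h => h.2 rfl) _ rfl)
  let lab := labFun H.hn adj H.hI ℓ
  have hall := isIso_map_partOfι lab Set.univ fun _ _ => Set.mem_univ _
  have sq' : IsPushout ((nerveN n).map (partLe lab (Set.inter_subset_left : D₁ ∩ D₂ ⊆ D₁)))
      ((nerveN n).map (partLe lab (Set.inter_subset_right : D₁ ∩ D₂ ⊆ D₂)))
      ((nerveN n).map (partOfι lab D₁)) ((nerveN n).map (partOfι lab D₂)) :=
    IsPushout.of_iso (isPushout_nerve_part lab H.hI Set.univ D₁ D₂ (Set.subset_univ _)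
        (Set.subset_univ _) fun a l _ => hcov a l)
      (Iso.refl _) (Iso.refl _) (Iso.refl _) (asIso ((nerveN n).map (partOfι lab Set.univ)))
      (by simp) (by simp)
      (by rw [Iso.refl_hom, Category.id_comp, asIso_hom, ← Functor.map_comp, partLe_ι])
      (by rw [Iso.refl_hom, Category.id_comp, asIso_hom, ← Functor.map_comp, partLe_ι])
  have hcomm : ∀ (S T : Set E) (h : S ⊆ T),
      nerveMap (partInclLe ℓ h).monotone.functor ≫
        (adj.unit.app (nerve (Part ℓ T)) ≫ (nerveN n).map (partMap H.hn adj H.hI ℓ T)) =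
      (adj.unit.app (nerve (Part ℓ S)) ≫ (nerveN n).map (partMap H.hn adj H.hI ℓ S)) ≫
        (nerveN n).map (partLe lab h) := by
    intro S T h
    rw [← Category.assoc, ← unit_freeMap, Category.assoc, Category.assoc, ← Functor.map_comp,
      ← Functor.map_comp, partMap_le H adj]
  exact H.hG _ _ _ (adj.unit.app (nerve E)) (isPushout_nerve_poset ℓ D₁ D₂ hcov) sq'
    (mono_nerveMap _ fun _ _ h => Subtype.ext (congrArg (Subtype.val) h :))
    (mono_map_partLe lab H.hI _) (hcomm _ _ _) (hcomm _ _ _)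
    (unit_partMap_ι H adj ℓ D₁).symm (unit_partMap_ι H adj ℓ D₂).symm w₀ w₁ w₂

end

end Vale.Agent.P213.Cells
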